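import Vale.Agent.P092AG.Defs
import Mathlib.Algebra.MvPolynomial.Monad
import Mathlib.Algebra.Polynomial.Roots
import Mathlib.Topology.Algebra.MvPolynomial
import Mathlib.Topology.Algebra.Polynomial
import Mathlib.LinearAlgebra.LinearIndependent.Lemmas
import Mathlib.Analysis.Normed.Module.FiniteDimension

/-!
P092, group side (helper91): polynomial functions, the diagonal torus, topology of closed groups.
-/

set_option linter.all false

open Matrix Filter Topology
open scoped Matrix.Norms.Elementwise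

namespace Vale.Agent.P092AG

section Alg

variable {n : ℕ} {R : Type} [Field R]

theorem ev_X (x : Mt n R) (i j : Fin n) : ev x (MvPolynomial.X (i, j)) = x i j := by
  simp [ev]

theorem ev_C (x : Mt n R) (c : R) : ev x (MvPolynomial.C c) = c := by simp [ev]

theorem mem_van {S : Set (GL (Fin n) R)} {p : Pl n R} : p ∈ van S ↔ ∀ g ∈ S, ev (g : Mt n R) p = 0 :=
  Iff.rfl

theorem PF.const (c : R) : PF (fun _ : Mt n R => c) := ⟨MvPolynomial.C c, fun x => (ev_C x c).symm⟩

theorem PF.entry (i j : Fin n) : PF (fun x : Mt n R => x i j) :=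
  ⟨MvPolynomial.X (i, j), fun x => (ev_X x i j).symm⟩

theorem PF.of (p : Pl n R) : PF (fun x : Mt n R => ev x p) := ⟨p, fun _ => rfl⟩

theorem PF.add {F F' : Mt n R → R} (h : PF F) (h' : PF F') : PF fun x => F x + F' x := by
  obtain ⟨p, hp⟩ := h; obtain ⟨q, hq⟩ := h'
  exact ⟨p + q, fun x => by rw [map_add, ← hp, ← hq]⟩

theorem PF.mul {F F' : Mt n R → R} (h : PF F) (h' : PF F') : PF fun x => F x * F' x := by
  obtain ⟨p, hp⟩ := h; obtain ⟨q, hq⟩ := h'
  exact ⟨p * q, fun x => by rw [map_mul, ← hp, ← hq]⟩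

theorem PF.neg {F : Mt n R → R} (h : PF F) : PF fun x => -F x := by
  obtain ⟨p, hp⟩ := h
  exact ⟨-p, fun x => by rw [map_neg, ← hp]⟩

theorem PF.sub {F F' : Mt n R → R} (h : PF F) (h' : PF F') : PF fun x => F x - F' x := by
  simpa only [sub_eq_add_neg] using h.add h'.neg

theorem PF.pow {F : Mt n R → R} (h : PF F) (m : ℕ) : PF fun x => F x ^ m := by
  obtain ⟨p, hp⟩ := h
  exact ⟨p ^ m, fun x => by rw [map_pow, ← hp]⟩

theorem PF.sum {ι : Type*} (s : Finset ι) {F : ι → Mt n R → R} (h : ∀ i ∈ s, PF (F i)) :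
    PF fun x => ∑ i ∈ s, F i x := by
  classical
  induction s using Finset.induction_on with
  | empty => simpa using PF.const 0
  | insert a s ha ih =>
    simp only [Finset.sum_insert ha]
    exact (h a (Finset.mem_insert_self _ _)).add (ih fun i hi => h i (Finset.mem_insert_of_mem hi))

theorem PF.prod {ι : Type*} (s : Finset ι) {F : ι → Mt n R → R} (h : ∀ i ∈ s, PF (F i)) :
    PF fun x => ∏ i ∈ s, F i x := by
  classical
  induction s using Finset.induction_on with
  | empty => simpa using PF.const 1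
  | insert a s ha ih =>
    simp only [Finset.prod_insert ha]
    exact (h a (Finset.mem_insert_self _ _)).mul (ih fun i hi => h i (Finset.mem_insert_of_mem hi))

theorem PF.ite (P : Prop) [Decidable P] {F F' : Mt n R → R} (h : PF F) (h' : PF F') :
    PF fun x => if P then F x else F' x := by
  by_cases hP : P
  · simpa [hP] using h
  · simpa [hP] using h'

theorem PF.det {ι : Type*} [Fintype ι] [DecidableEq ι] {T : Mt n R → Matrix ι ι R}
    (h : ∀ i j, PF fun x => T x i j) : PF fun x => (T x).det := by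
  simp only [det_apply']
  exact PF.sum _ fun σ _ => (PF.const _).mul (PF.prod _ fun i _ => h _ _)

theorem PF.comp {m : ℕ} {F : Mt m R → R} (hF : PF F) {T : Mt n R → Mt m R}
    (h : ∀ i j, PF fun x => T x i j) : PF fun x => F (T x) := by
  obtain ⟨p, hp⟩ := hF
  simp only [hp]
  clear hp
  induction p using MvPolynomial.induction_on with
  | C c => simpa only [ev_C] using PF.const c
  | add p q hp hq => simpa only [map_add] using hp.add hq
  | mul_X p ij hp =>
    obtain ⟨i, j⟩ := ij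
    simpa only [map_mul, ev_X] using hp.mul (h i j)

theorem PF.mulE {S T : Mt n R → Mt n R} (hS : ∀ i j, PF fun x => S x i j)
    (hT : ∀ i j, PF fun x => T x i j) (i j : Fin n) : PF fun x => (S x * T x) i j := by
  simp only [mul_apply]
  exact PF.sum _ fun l _ => (hS i l).mul (hT l j)

theorem PF.lr {F : Mt n R → R} (hF : PF F) (a b : Mt n R) : PF fun x => F (a * x * b) :=
  hF.comp (PF.mulE (PF.mulE (fun _ _ => PF.const _) PF.entry) fun _ _ => PF.const _)

theorem PF.adj (i j : Fin n) : PF fun x : Mt n R => adjugate x i j := by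
  simp only [adjugate_apply]
  refine PF.det fun a b => ?_
  simp only [updateRow_apply]
  exact PF.ite _ (PF.const _) (PF.entry _ _)

theorem pf_mn (y : Fin n → ℤ) (a : ℤ) : PF (mn (R := R) y a) := by
  refine PF.det (T := fun x => P092AL.tr y a x) fun i j => ?_
  simp only [P092AL.tr, Matrix.add_apply]
  exact (PF.mulE (S := fun x => P092AL.pj R y a * x) (T := fun _ => P092AL.pj R y a)
    (PF.mulE (S := fun _ => P092AL.pj R y a) (T := fun x => x) (fun _ _ => PF.const _) PF.entry)
    (fun _ _ => PF.const _) i j).add (PF.const _)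

theorem pf_fy (y : Fin n → ℤ) : PF (fy (R := R) y) :=
  PF.prod _ fun i _ => (pf_mn y _).mul (pf_mn y _)

/-- polynomial functions of one variable -/
def PT (F : R → R) : Prop := ∃ q : Polynomial R, ∀ t, F t = q.eval t

theorem PT.const (c : R) : PT fun _ => c := ⟨Polynomial.C c, fun t => by simp⟩

theorem PT.pow (m : ℕ) : PT fun t : R => t ^ m := ⟨Polynomial.X ^ m, fun t => by simp⟩

theorem PT.add {F F' : R → R} (h : PT F) (h' : PT F') : PT fun x => F x + F' x := by
  obtain ⟨p, hp⟩ := h; obtain ⟨q, hq⟩ := h'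
  exact ⟨p + q, fun x => by rw [Polynomial.eval_add, ← hp, ← hq]⟩

theorem PT.mul {F F' : R → R} (h : PT F) (h' : PT F') : PT fun x => F x * F' x := by
  obtain ⟨p, hp⟩ := h; obtain ⟨q, hq⟩ := h'
  exact ⟨p * q, fun x => by rw [Polynomial.eval_mul, ← hp, ← hq]⟩

theorem PT.sum {ι : Type*} (s : Finset ι) {F : ι → R → R} (h : ∀ i ∈ s, PT (F i)) :
    PT fun x => ∑ i ∈ s, F i x := by
  classical
  induction s using Finset.induction_on with
  | empty => simpa using PT.const 0
  | insert a s ha ih =>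
    simp only [Finset.sum_insert ha]
    exact (h a (Finset.mem_insert_self _ _)).add (ih fun i hi => h i (Finset.mem_insert_of_mem hi))

theorem PF.pt {F : Mt n R → R} (hF : PF F) {T : R → Mt n R} (h : ∀ i j, PT fun t => T t i j) :
    PT fun t => F (T t) := by
  obtain ⟨p, hp⟩ := hF
  simp only [hp]
  clear hp
  induction p using MvPolynomial.induction_on with
  | C c => simpa only [ev_C] using PT.const c
  | add p q hp hq => simpa only [map_add] using hp.add hq
  | mul_X p ij hp =>
    obtain ⟨i, j⟩ := ij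
    simpa only [map_mul, ev_X] using hp.mul (h i j)

theorem PT.mulE {S T : R → Mt n R} (hS : ∀ i j, PT fun x => S x i j)
    (hT : ∀ i j, PT fun x => T x i j) (i j : Fin n) : PT fun x => (S x * T x) i j := by
  simp only [mul_apply]
  exact PT.sum _ fun l _ => (hS i l).mul (hT l j)

/-! the torus -/

theorem tor_val (y : Fin n → ℤ) (t : Rˣ) :
    ((tor y t : GL (Fin n) R) : Mt n R) = diagonal fun i => (t : R) ^ y i := by
  simp [tor]

theorem tor_add (a b : Fin n → ℤ) (t : Rˣ) : tor (a + b) t = tor a t * tor b t := by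
  ext i j
  simp only [tor, Units.val_mul, diagonal_mul_diagonal, Pi.add_apply, _root_.zpow_add]

theorem tor_neg (a : Fin n → ℤ) (t : Rˣ) : tor (-a) t = (tor a t)⁻¹ := by ext i j; rfl

theorem tor_zero (t : Rˣ) : tor (0 : Fin n → ℤ) t = 1 := by ext i j; simp [tor]

theorem tor_mul (a : Fin n → ℤ) (s t : Rˣ) : tor a (s * t) = tor a s * tor a t := by
  ext i j
  simp only [tor, Units.val_mul, diagonal_mul_diagonal, _root_.mul_zpow]

theorem tor_one (a : Fin n → ℤ) : tor a (1 : Rˣ) = 1 := by ext i j; simp [tor]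

theorem tor_inv (a : Fin n → ℤ) (t : Rˣ) : tor a t⁻¹ = (tor a t)⁻¹ := by
  rw [eq_inv_iff_mul_eq_one, ← tor_mul, inv_mul_cancel, tor_one]

theorem tor_comm (a b : Fin n → ℤ) (s t : Rˣ) : tor a s * tor b t = tor b t * tor a s := by
  ext i j
  simp only [tor, Units.val_mul, diagonal_mul_diagonal, mul_comm]

theorem tor_conj (y : Fin n → ℤ) (t : Rˣ) (x : Mt n R) (i j : Fin n) :
    (((tor y t : GL (Fin n) R) : Mt n R) * x * (((tor y t)⁻¹ : GL (Fin n) R) : Mt n R)) i j =
      (t : R) ^ (y i - y j) * x i j := by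
  rw [← tor_neg, tor_val, tor_val, mul_diagonal, diagonal_mul, Pi.neg_apply, sub_eq_add_neg,
    zpow_add₀ t.ne_zero]
  ring

theorem mem_Pgl {y : Fin n → ℤ} {g : GL (Fin n) R} : g ∈ Pgl y ↔ IsP y (g : Mt n R) := Iff.rfl
theorem mem_Lgl {y : Fin n → ℤ} {g : GL (Fin n) R} : g ∈ Lgl y ↔ IsL y (g : Mt n R) := Iff.rfl
theorem mem_Ugl {y : Fin n → ℤ} {g : GL (Fin n) R} : g ∈ Ugl y ↔ IsU y (g : Mt n R) := Iff.rfl
theorem mem_Y {G : Subgroup (GL (Fin n) R)} {y : Fin n → ℤ} : y ∈ Y G ↔ ∀ t : Rˣ, tor y t ∈ G := Iff.rfl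

theorem tor_mem_Lgl (a y : Fin n → ℤ) (t : Rˣ) : tor a t ∈ Lgl (R := R) y := fun i j hij => by
  rw [tor_val]; exact diagonal_apply_ne _ (fun e => hij (by rw [e]))

theorem Lgl_le_Pgl (y : Fin n → ℤ) : Lgl (R := R) y ≤ Pgl y := fun _ hg => ((isL_iff y _).1 hg).1

theorem Lgl_neg (y : Fin n → ℤ) : Lgl (R := R) (-y) = Lgl y := by
  ext g
  simp only [mem_Lgl, IsL, Pi.neg_apply, ne_eq, neg_inj]

theorem Ugl_le_Pgl (y : Fin n → ℤ) : Ugl (R := R) y ≤ Pgl y := fun _ hg => IsU.isP hg

theorem IsU.mul_isP {y : Fin n → ℤ} {x x' : Mt n R} (h : IsU y x) (h' : IsP y x') {i j : Fin n}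
    (hij : y i ≤ y j) : (x * x') i j = x' i j := by
  conv_rhs => rw [← one_mul x']
  rw [mul_apply, mul_apply]
  refine Finset.sum_congr rfl fun l _ => ?_
  by_cases hl : y i ≤ y l
  · rw [h i l hl]
  · rw [h' l j (by omega), mul_zero, mul_zero]

theorem conj_mem_Ugl {y : Fin n → ℤ} {p u : GL (Fin n) R} (hp : p ∈ Pgl y) (hu : u ∈ Ugl y) :
    p * u * p⁻¹ ∈ Ugl y := fun i j hij => by
  have h1 : ∀ l, y i ≤ y l → ((p * u : GL (Fin n) R) : Mt n R) i l = (p : Mt n R) i l := fun l hl =>
    IsP.mul_isU hp hu hl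
  have h2 : (p : Mt n R) * ((p⁻¹ : GL (Fin n) R) : Mt n R) = 1 := by
    rw [← Units.val_mul, mul_inv_cancel, Units.val_one]
  rw [← h2, Units.val_mul, mul_apply, mul_apply]
  refine Finset.sum_congr rfl fun l _ => ?_
  by_cases hl : y i ≤ y l
  · rw [h1 l hl]
  · rw [IsP.inv hp l j (by omega), mul_zero, mul_zero]

theorem comm_tor {y : Fin n → ℤ} {g : GL (Fin n) R} (hg : g ∈ Lgl y) (t : Rˣ) :
    tor y t * g = g * tor y t := by
  rw [← mul_inv_eq_iff_eq_mul]
  ext i j
  rw [Units.val_mul, Units.val_mul, tor_conj]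
  by_cases h : y i = y j
  · rw [h, sub_self, zpow_zero, one_mul]
  · rw [hg i j h, mul_zero]

theorem mem_Zc {G : Subgroup (GL (Fin n) R)} {g : GL (Fin n) R} :
    g ∈ Zc G ↔ g ∈ G ∧ ∀ y ∈ Y G, g ∈ Lgl y := by
  simp [Zc, Subgroup.mem_iInf]

theorem Reg.zc {G : Subgroup (GL (Fin n) R)} {y : Fin n → ℤ} (h : Reg G y) : Zc G = G ⊓ Lgl y := by
  ext g
  rw [mem_Zc]
  exact ⟨fun hg => ⟨hg.1, hg.2 y h.1⟩, fun hg => ⟨hg.1, fun y' hy' i j hij =>
    hg.2 i j fun e => hij (h.2 i j e y' hy')⟩⟩

end Alg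

section Top

variable {n : ℕ} {k : Type} [NontriviallyNormedField k]

theorem PF.continuous {F : Mt n k → k} (h : PF F) : Continuous F := by
  obtain ⟨p, hp⟩ := h
  have : F = fun x => MvPolynomial.eval (fun ij : Fin n × Fin n => x ij.1 ij.2) p := funext hp
  rw [this]
  exact (MvPolynomial.continuous_eval p).comp (continuous_pi fun ij => by fun_prop)

theorem PF.contGL {F : Mt n k → k} (h : PF F) : Continuous fun g : GL (Fin n) k => F (g : Mt n k) :=
  h.continuous.comp Units.continuous_val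

theorem emb_val : IsEmbedding fun g : GL (Fin n) k => (g : Mt n k) := by
  refine Units.isEmbedding_val_mk' (f := fun x : Mt n k => x⁻¹) (fun x hx => ?_) fun u =>
    (Matrix.coe_units_inv u).symm
  refine (continuousAt_matrix_inv x ?_).continuousWithinAt
  have hd : x.det ≠ 0 := ((isUnit_iff_isUnit_det x).1 hx).ne_zero
  rw [Ring.inverse_eq_inv']
  exact continuousAt_inv₀ hd

theorem ZCl.isClosed {S : Set (GL (Fin n) k)} (h : ZCl S) : IsClosed S := by
  have : S = ⋂ p ∈ van S, {g : GL (Fin n) k | ev (g : Mt n k) p = 0} := by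
    ext g
    simp only [Set.mem_iInter, Set.mem_setOf_eq]
    exact ⟨fun hg p hp => hp g hg, h g⟩
  rw [this]
  exact isClosed_biInter fun p _ => isClosed_eq (PF.of p).contGL continuous_const

theorem cont_entry (i j : Fin n) : Continuous fun g : GL (Fin n) k => (g : Mt n k) i j :=
  (PF.entry i j).contGL

theorem isClosed_Pgl (y : Fin n → ℤ) : IsClosed (Pgl (R := k) y : Set (GL (Fin n) k)) := by
  have : (Pgl (R := k) y : Set (GL (Fin n) k)) = ⋂ i, ⋂ j, ⋂ _ : y i < y j, {g : GL (Fin n) k | (g : Mt n k) i j = 0} := by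
    ext g; simp [mem_Pgl, IsP]
  rw [this]
  exact isClosed_iInter fun i => isClosed_iInter fun j => isClosed_iInter fun _ =>
    isClosed_eq (cont_entry i j) continuous_const

theorem isClosed_Lgl (y : Fin n → ℤ) : IsClosed (Lgl (R := k) y : Set (GL (Fin n) k)) := by
  have : (Lgl (R := k) y : Set (GL (Fin n) k)) = ⋂ i, ⋂ j, ⋂ _ : y i ≠ y j, {g : GL (Fin n) k | (g : Mt n k) i j = 0} := by
    ext g; simp [mem_Lgl, IsL]
  rw [this]
  exact isClosed_iInter fun i => isClosed_iInter fun j => isClosed_iInter fun _ =>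
    isClosed_eq (cont_entry i j) continuous_const

theorem isClosed_Ugl (y : Fin n → ℤ) : IsClosed (Ugl (R := k) y : Set (GL (Fin n) k)) := by
  have : (Ugl (R := k) y : Set (GL (Fin n) k)) =
      ⋂ i, ⋂ j, ⋂ _ : y i ≤ y j, {g : GL (Fin n) k | (g : Mt n k) i j = (1 : Mt n k) i j} := by
    ext g; simp [mem_Ugl, IsU]
  rw [this]
  exact isClosed_iInter fun i => isClosed_iInter fun j => isClosed_iInter fun _ =>
    isClosed_eq (cont_entry i j) continuous_const

/-- bounded closed sets of matrices of determinant one are compact -/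
theorem isCompact_of_bdd [ProperSpace k] {S : Set (GL (Fin n) k)} (hS : IsClosed S)
    (h1 : ∀ g ∈ S, (g : Mt n k).det = 1) {r : ℝ} (hr : ∀ g ∈ S, ‖(g : Mt n k)‖ ≤ r) : IsCompact S := by
  have : ProperSpace (Mt n k) := FiniteDimensional.proper k _
  rw [emb_val.isCompact_iff]
  refine (isCompact_closedBall (0 : Mt n k) r).of_isClosed_subset ?_ ?_
  · refine isClosed_of_closure_subset fun x hx => ?_
    have hd : x.det = 1 := by
      have : closure ((fun g : GL (Fin n) k => (g : Mt n k)) '' S) ⊆ {x | x.det = 1} :=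
        closure_minimal (by rintro _ ⟨g, hg, rfl⟩; exact h1 g hg)
          (isClosed_eq (PF.det PF.entry).continuous continuous_const)
      exact this hx
    have hu : IsUnit x := (isUnit_iff_isUnit_det x).2 (by rw [hd]; exact isUnit_one)
    refine ⟨hu.unit, ?_, rfl⟩
    rw [← hS.closure_eq, emb_val.closure_eq_preimage_closure_image]
    exact hx
  · rintro _ ⟨g, hg, rfl⟩
    simpa using hr g hg

theorem bdd_of_isCompact {S : Set (GL (Fin n) k)} (hS : IsCompact S) :
    ∃ r, ∀ g ∈ S, ‖(g : Mt n k)‖ ≤ r := by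
  obtain ⟨r, hr⟩ := (hS.image Units.continuous_val).isBounded.exists_norm_le
  exact ⟨r, fun g hg => hr _ ⟨g, hg, rfl⟩⟩

end Top

end Vale.Agent.P092AG
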