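import Vale.Agent.P092AG.H2
import Vale.Agent.P092TO.Nu
import Mathlib.LinearAlgebra.Dual.Lemmas
import Mathlib.RingTheory.Noetherian.Basic

/-!
P092, group side (helper91): Laurent coefficients, generic cocharacters, saturation, the finite Weyl group.
-/

set_option linter.all false

open Matrix Filter Topology
open scoped Matrix.Norms.Elementwise

namespace Vale.Agent.P092AG

open Vale.Agent.P092TO

variable {n : ℕ} {k : Type} [NontriviallyNormedField k] {G : Subgroup (GL (Fin n) k)} {y : Fin n → ℤ}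

theorem zpow_inj_of {a b : ℤ} (h : ∀ t : kˣ, (t : k) ^ a = (t : k) ^ b) : a = b := by
  obtain ⟨ϖ, h1, -⟩ := exists_unif k
  have := congrArg norm (h ϖ)
  rw [norm_zpow, norm_zpow] at this
  exact zpow_right_injective₀ (norm_pos_iff.2 ϖ.ne_zero) h1.ne this

/-- Laurent coefficients -/
theorem laurent {K V : Type} [Field K] [Algebra k K] [AddCommGroup V] [Module K V] (S : Submodule K V)
    (s : Finset ℤ) (v : ℤ → V) (h : ∀ t : kˣ, ∑ a ∈ s, (algebraMap k K t) ^ a • v a ∈ S) :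
    ∀ a ∈ s, v a ∈ S := by
  intro a ha
  let χ : ℤ → kˣ →* K := fun a => ((algebraMap k K : k →* K).comp (Units.coeHom k)).comp (zpowGroupHom a)
  have h1 : ∀ a t, χ a t = (algebraMap k K t) ^ a := fun a t => by simp [χ]
  have h2 : Function.Injective χ := fun a b e => zpow_inj_of (k := k) fun t =>
    (algebraMap k K).injective (by rw [map_zpow₀, map_zpow₀, ← h1, ← h1, e])
  have h3 := linearIndependent_iff'.1 ((linearIndependent_monoidHom kˣ K).comp χ h2) s
  rw [← Submodule.Quotient.mk_eq_zero, ← Module.forall_dual_apply_eq_zero_iff K]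
  intro ξ
  refine h3 (fun a => ξ (Submodule.Quotient.mk (v a))) (funext fun t => ?_) a ha
  have h4 := congrArg ξ ((Submodule.Quotient.mk_eq_zero S).2 (h t))
  rw [← Submodule.mkQ_apply, map_sum, map_sum, map_zero] at h4
  rw [Finset.sum_apply, Pi.zero_apply, ← h4]
  refine Finset.sum_congr rfl fun a _ => ?_
  rw [map_smul, map_smul, Pi.smul_apply, Function.comp_apply, h1, smul_eq_mul, smul_eq_mul, mul_comm]
  rfl

/-- generic elements -/
theorem exists_gen {A ι : Type} [AddCommGroup A] (s : Finset ι) (φ : ι → A →+ ℤ)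
    (h : ∀ i ∈ s, φ i ≠ 0) : ∃ x, ∀ i ∈ s, φ i x ≠ 0 := by
  classical
  induction s using Finset.induction_on with
  | empty => exact ⟨0, by simp⟩
  | insert a s ha ih =>
    obtain ⟨x, hx⟩ := ih fun i hi => h i (Finset.mem_insert_of_mem hi)
    obtain ⟨x', hx'⟩ := DFunLike.ne_iff.1 (h a (Finset.mem_insert_self _ _))
    by_cases h0 : φ a x = 0
    · obtain ⟨N, hN⟩ := (s.finite_toSet.image fun i => |φ i x'|).bddAbove
      refine ⟨(|N| + 1) • x + x', fun i hi => ?_⟩
      rw [map_add, map_zsmul, smul_eq_mul]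
      rcases Finset.mem_insert.1 hi with rfl | hi
      · rw [h0, mul_zero, zero_add]; exact hx'
      · intro e
        have h1 : |φ i x'| ≤ N := hN ⟨i, hi, rfl⟩
        have h2 : φ i x' = -((|N| + 1) * φ i x) := by linarith
        rw [h2, abs_neg, abs_mul, abs_of_pos (by positivity : 0 < |N| + 1)] at h1
        have h3 : 1 ≤ |φ i x| := Int.one_le_abs (hx i hi)
        have := le_abs_self N
        nlinarith [abs_nonneg N]
    · exact ⟨x, fun i hi => (Finset.mem_insert.1 hi).elim (fun e => e ▸ h0) (hx i)⟩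

theorem exists_reg {R : Type} [Field R] (G : Subgroup (GL (Fin n) R)) : ∃ y, Reg G y := by
  classical
  let φ : Fin n × Fin n → Y G →+ ℤ := fun p =>
    ((Pi.evalAddMonoidHom (fun _ => ℤ) p.1) - (Pi.evalAddMonoidHom (fun _ => ℤ) p.2)).comp (Y G).subtype
  obtain ⟨x, hx⟩ := exists_gen (Finset.univ.filter fun p : Fin n × Fin n => ¬Sim G p.1 p.2) φ
    fun p hp e => (Finset.mem_filter.1 hp).2 fun y hy =>
      sub_eq_zero.1 (DFunLike.congr_fun e ⟨y, hy⟩)
  exact ⟨x, x.2, fun i j e => not_not.1 fun h =>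
    hx (i, j) (Finset.mem_filter.2 ⟨Finset.mem_univ _, h⟩) (sub_eq_zero.2 e)⟩

/-- families of Laurent polynomials with a bounded pole at zero -/
def LT {X : Type} (F : X → kˣ → k) : Prop :=
  ∃ M : ℕ, ∀ x, ∃ q : Polynomial k, ∀ t : kˣ, (t : k) ^ M * F x t = q.eval (t : k)

theorem LT.const {X : Type} (c : X → k) : LT fun x (_ : kˣ) => c x :=
  ⟨0, fun x => ⟨Polynomial.C (c x), fun t => by simp⟩⟩

theorem LT.zpow {X : Type} (a : ℤ) : LT fun (_ : X) (t : kˣ) => (t : k) ^ a :=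
  ⟨a.natAbs, fun _ => ⟨Polynomial.X ^ (a.natAbs + a).toNat, fun t => by
    rw [Polynomial.eval_pow, Polynomial.eval_X, ← zpow_natCast, ← zpow_natCast, ← zpow_add₀ t.ne_zero,
      Int.toNat_of_nonneg (by omega)]⟩⟩

theorem LT.mul {X : Type} {F F' : X → kˣ → k} (h : LT F) (h' : LT F') : LT fun x t => F x t * F' x t := by
  obtain ⟨M, h⟩ := h; obtain ⟨M', h'⟩ := h'
  refine ⟨M + M', fun x => ?_⟩
  obtain ⟨q, h⟩ := h x; obtain ⟨q', h'⟩ := h' x
  exact ⟨q * q', fun t => by rw [Polynomial.eval_mul, ← h, ← h']; ring⟩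

theorem LT.add {X : Type} {F F' : X → kˣ → k} (h : LT F) (h' : LT F') : LT fun x t => F x t + F' x t := by
  obtain ⟨M, h⟩ := h; obtain ⟨M', h'⟩ := h'
  refine ⟨M + M', fun x => ?_⟩
  obtain ⟨q, h⟩ := h x; obtain ⟨q', h'⟩ := h' x
  exact ⟨Polynomial.X ^ M' * q + Polynomial.X ^ M * q', fun t => by
    simp only [Polynomial.eval_add, Polynomial.eval_mul, Polynomial.eval_pow, Polynomial.eval_X,
      ← h, ← h']; ring⟩

theorem LT.sum {X ι : Type} (s : Finset ι) {F : ι → X → kˣ → k} (h : ∀ i ∈ s, LT (F i)) :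
    LT fun x t => ∑ i ∈ s, F i x t := by
  classical
  induction s using Finset.induction_on with
  | empty => simpa using LT.const (k := k) fun _ : X => 0
  | insert a s ha ih =>
    simp only [Finset.sum_insert ha]
    exact (h a (Finset.mem_insert_self _ _)).add (ih fun i hi => h i (Finset.mem_insert_of_mem hi))

theorem PF.lt {X : Type} {F : Mt n k → k} (hF : PF F) {T : X → kˣ → Mt n k}
    (h : ∀ i j, LT fun x t => T x t i j) : LT fun x t => F (T x t) := by
  obtain ⟨p, hp⟩ := hF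
  simp only [hp]
  clear hp
  induction p using MvPolynomial.induction_on with
  | C c => simpa only [ev_C] using LT.const fun _ => c
  | add p q hp hq => simpa only [map_add] using hp.add hq
  | mul_X p ij hp =>
    obtain ⟨i, j⟩ := ij
    simpa only [map_mul, ev_X] using hp.mul (h i j)

theorem lt_tor {X : Type} (a b : X → Mt n k) (y : Fin n → ℤ) (i j : Fin n) :
    LT fun x t => (a x * ((tor y t : GL (Fin n) k) : Mt n k) * b x) i j := by
  simp only [tor_val, mul_apply (M := a _ * _), mul_diagonal]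
  exact LT.sum _ fun l _ => ((LT.const _).mul (LT.zpow _)).mul (LT.const _)

theorem tor_smul {R : Type} [Field R] (D : ℕ) (y : Fin n → ℤ) (t : Rˣ) :
    tor (D • y) t = tor y (t ^ D) := by
  ext i j
  have : ∀ i, (D • y) i = D * y i := fun i => by rw [Pi.smul_apply, nsmul_eq_mul]
  simp only [tor_val, this, _root_.zpow_mul, zpow_natCast, Units.val_pow_eq_pow_val]

theorem mem_Y_of_smul (hG : ZCl (G : Set (GL (Fin n) k))) {D : ℕ} (hD : 0 < D) (h : D • y ∈ Y G) :
    y ∈ Y G := fun t => hG _ fun p hp => by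
  obtain ⟨M, hM⟩ := (PF.of p).lt (lt_tor (fun _ : Unit => 1) (fun _ => 1) y)
  obtain ⟨q, hq⟩ := hM ()
  simp only [one_mul, mul_one] at hq
  obtain ⟨ϖ, h1, -⟩ := exists_unif k
  have h2 : q = 0 := Polynomial.eq_zero_of_infinite_isRoot _ (Set.infinite_of_injective_forall_mem
    (f := fun j : ℕ => (((ϖ ^ j) ^ D : kˣ) : k)) (fun a b e => by
      have := congrArg norm e
      simp only [Units.val_pow_eq_pow_val, norm_pow, ← pow_mul] at this
      exact Nat.eq_of_mul_eq_mul_right hD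
        (pow_right_injective₀ (norm_pos_iff.2 ϖ.ne_zero) h1.ne this)) fun j => by
      rw [Set.mem_setOf_eq, Polynomial.IsRoot, ← hq, ← tor_smul, hp _ (h _), mul_zero])
  have h3 := hq t
  rw [h2, Polynomial.eval_zero] at h3
  exact (mul_eq_zero.1 h3).resolve_left (pow_ne_zero _ t.ne_zero)

/-- saturation -/
theorem mem_Y_of_YR (hG : ZCl (G : Set (GL (Fin n) k))) (h : (fun i => (y i : ℝ)) ∈ YR G) : y ∈ Y G := by
  obtain ⟨φ, hφ⟩ := Module.Projective.exists_dual_eq_one ℚ (one_ne_zero : (1 : ℝ) ≠ 0)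
  have h1 : ∀ ν ∈ YR G, ∀ r : ℝ, ∃ D : ℕ, 0 < D ∧ ∃ y' ∈ Y G, ∀ i, D * φ (r * ν i) = y' i := by
    intro ν hν
    induction hν using Submodule.span_induction with
    | mem _ h =>
      obtain ⟨y', hy', rfl⟩ := h
      refine fun r => ⟨(φ r).den, (φ r).den_pos, (φ r).num • y', (Y G).zsmul_mem hy' _, fun i => ?_⟩
      rw [mul_comm r, ← zsmul_eq_mul, map_zsmul, Pi.smul_apply, smul_eq_mul, zsmul_eq_mul,
        mul_left_comm, Rat.den_mul_eq_num]
      push_cast; ring
    | zero => exact fun r => ⟨1, one_pos, 0, (Y G).zero_mem, fun i => by simp⟩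
    | add _ _ _ _ h h' =>
      intro r
      obtain ⟨D, h1, y1, h2, h3⟩ := h r
      obtain ⟨D', h4, y2, h5, h6⟩ := h' r
      refine ⟨D * D', by positivity, D' • y1 + D • y2,
        (Y G).add_mem ((Y G).nsmul_mem h2 _) ((Y G).nsmul_mem h5 _), fun i => ?_⟩
      rw [Pi.add_apply, Pi.add_apply, mul_add, map_add, Pi.smul_apply, Pi.smul_apply, nsmul_eq_mul,
        nsmul_eq_mul]
      push_cast
      rw [← h3, ← h6]; ring
    | smul c _ _ h => exact fun r => by simpa only [Pi.smul_apply, smul_eq_mul, mul_assoc] using h (r * c)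
  obtain ⟨D, h2, y', h3, h4⟩ := h1 _ h 1
  refine mem_Y_of_smul hG h2 ?_
  have : D • y = y' := funext fun i => by
    have h5 := h4 i
    rw [mul_comm (1 : ℝ), ← zsmul_eq_mul, map_zsmul, hφ, zsmul_eq_mul, mul_one] at h5
    rw [Pi.smul_apply, nsmul_eq_mul]
    exact_mod_cast h5
  rwa [this]

theorem wt_eq_of_comm {a b : Fin n → ℤ} {g : GL (Fin n) k} (h : ∀ t, tor b t * g = g * tor a t)
    {i j : Fin n} (h0 : (g : Mt n k) i j ≠ 0) : b i = a j := zpow_inj_of (k := k) fun t => by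
  have := congrArg (fun x : GL (Fin n) k => (x : Mt n k) i j) (h t)
  simp only [Units.val_mul, tor_val, mul_diagonal, diagonal_mul] at this
  exact mul_right_cancel₀ h0 (this.trans (mul_comm _ _))

theorem mem_Lgl_of_comm {g : GL (Fin n) k} (h : ∀ t, tor y t * g = g * tor y t) : g ∈ Lgl y :=
  fun i j e => not_not.1 fun h0 => e (wt_eq_of_comm h h0)

theorem tor_inj {a b : Fin n → ℤ} (h : ∀ t : kˣ, tor a t = tor b t) : a = b := funext fun i =>
  wt_eq_of_comm (g := (1 : GL (Fin n) k)) (fun t => by rw [mul_one, one_mul, h]) (i := i) (j := i)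
    (by simp)

theorem exists_row {R : Type} [Field R] (g : GL (Fin n) R) (i : Fin n) : ∃ j, (g : Mt n R) i j ≠ 0 := by
  by_contra h
  push Not at h
  exact (gl_unit g).ne_zero (det_eq_zero_of_row_eq_zero i h)

theorem finite_vals (y : Fin n → ℤ) : {a : Fin n → ℤ | ∀ i, ∃ j, a i = y j}.Finite :=
  (Set.Finite.pi' fun _ => Set.finite_range y).subset fun a ha i => let ⟨j, e⟩ := ha i; ⟨j, e.symm⟩

theorem surj_of_vals {A : AddSubgroup (Fin n → ℤ)} {c : A → A} (hc : Function.Injective c)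
    (h : ∀ a i, ∃ j, (c a).1 i = a.1 j) : Function.Surjective c := fun b => by
  have h1 : {a : A | ∀ i, ∃ j, a.1 i = b.1 j}.Finite :=
    (finite_vals b.1).preimage Subtype.val_injective.injOn
  have h2 := (h1.injOn_iff_bijOn_of_mapsTo (f := c) fun a ha i => by
    obtain ⟨j, e⟩ := h a i
    obtain ⟨l, e'⟩ := ha j
    exact ⟨l, e.trans e'⟩).1 hc.injOn
  obtain ⟨a, -, e⟩ := h2.surjOn (show b ∈ _ from fun i => ⟨i, rfl⟩)
  exact ⟨a, e⟩

theorem mem_Nm_of {x : GL (Fin n) k} (hx : x ∈ G)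
    (h : ∀ a ∈ Y G, ∃ b ∈ Y G, ∀ t, x⁻¹ * tor a t * x = tor b t) : x ∈ Nm G := by
  refine ⟨hx, fun b hb => ?_, h⟩
  choose c h1 h2 using h
  obtain ⟨a, ha⟩ := surj_of_vals (A := Y G) (c := fun a => ⟨c a.1 a.2, h1 _ _⟩) (fun a a' e => by
    have e' : c a.1 a.2 = c a'.1 a'.2 := congrArg Subtype.val e
    refine Subtype.ext (tor_inj (k := k) fun t => ?_)
    have := h2 _ a.2 t
    rw [e', ← h2 _ a'.2 t] at this
    simpa using this) (fun a i => by
    obtain ⟨j, hj⟩ := exists_row x⁻¹ i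
    exact ⟨j, wt_eq_of_comm (fun t => by rw [← h2 _ a.2 t]; group) hj⟩) ⟨b, hb⟩
  have e : c a.1 a.2 = b := congrArg Subtype.val ha
  exact ⟨a.1, a.2, fun t => by rw [← e, ← h2 _ a.2 t]; group⟩

theorem Nm_le : Nm G ≤ G := fun _ h => h.1

theorem Zc_le_Nm : Zc G ≤ Nm G := fun z hz => mem_Nm_of (mem_Zc.1 hz).1 fun a ha =>
  ⟨a, ha, fun t => by rw [mul_assoc, comm_tor ((mem_Zc.1 hz).2 a ha)]; group⟩

theorem Nm_conj {m z : GL (Fin n) k} (hm : m ∈ Nm G) (hz : z ∈ Zc G) : m * z * m⁻¹ ∈ Zc G :=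
  mem_Zc.2 ⟨G.mul_mem (G.mul_mem hm.1 (mem_Zc.1 hz).1) (G.inv_mem hm.1), fun a ha => by
    obtain ⟨b, hb, e⟩ := hm.2.2 a ha
    refine mem_Lgl_of_comm fun t => ?_
    have h1 := comm_tor ((mem_Zc.1 hz).2 b hb) t
    rw [← e] at h1
    calc _ = m * (m⁻¹ * tor a t * m * z) * m⁻¹ := by group
      _ = _ := by rw [h1]; group⟩

/-- the Weyl group is finite -/
theorem Nm_fin (G : Subgroup (GL (Fin n) k)) :
    ∃ T : Set (GL (Fin n) k), T.Finite ∧ T ⊆ Nm G ∧ ∀ m ∈ Nm G, ∃ r ∈ T, m * r⁻¹ ∈ Zc G := by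
  obtain ⟨y, hy⟩ := exists_reg G
  have h1 : ∀ m : Nm G, ∃ b : Fin n → ℤ, ∀ t, m.1⁻¹ * tor y t * m.1 = tor b t := fun m =>
    let ⟨b, _, e⟩ := m.2.2.2 y hy.1; ⟨b, e⟩
  choose c hc using h1
  have h2 : (Set.range c).Finite := (finite_vals y).subset (by
    rintro _ ⟨m, rfl⟩ i
    obtain ⟨j, hj⟩ := exists_row m.1⁻¹ i
    exact ⟨j, wt_eq_of_comm (fun t => by rw [← hc m t]; group) hj⟩)
  have := h2.to_subtype
  refine ⟨Set.range fun b : Set.range c => (Set.rangeSplitting c b).1, Set.finite_range _,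
    by rintro _ ⟨b, rfl⟩; exact (Set.rangeSplitting c b).2, fun m hm => ?_⟩
  let b : Set.range c := ⟨c ⟨m, hm⟩, _, rfl⟩
  refine ⟨_, ⟨b, rfl⟩, ?_⟩
  rw [hy.zc]
  refine ⟨G.mul_mem hm.1 (G.inv_mem (Set.rangeSplitting c b).2.1), mem_Lgl_of_comm fun t => ?_⟩
  have h3 := hc (Set.rangeSplitting c b) t
  rw [Set.apply_rangeSplitting c b, ← hc ⟨m, hm⟩ t] at h3
  calc _ = m * (m⁻¹ * tor y t * m) * (Set.rangeSplitting c b).1⁻¹ := by group
    _ = _ := by rw [← h3]; group

end Vale.Agent.P092AG
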