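import Vale.Agent.P092AG.Br
import Vale.Agent.P092A2.Ev

/-!
P092, group side (helper91): interpolation, the stabiliser `Hs` of the equation of the big cell.
-/

set_option linter.all false

open Matrix Filter Topology
open scoped Matrix.Norms.Elementwise

namespace Vale.Agent.P092AG

section Alg

variable {n : ℕ} {R : Type} [Field R] {G : Subgroup (GL (Fin n) R)} {y : Fin n → ℤ}

/-- the span of the right translates of `F` -/
def Wf (G : Subgroup (GL (Fin n) R)) (F : Mt n R → R) : Submodule R (G → R) :=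
  Submodule.span R (Set.range fun g : G => fun w : G => F ((w * g : G) : GL (Fin n) R))

theorem Wf_fg {F : Mt n R → R} (hF : PF F) : (Wf G F).FG := by
  let j : G →* Mt n R := (Units.coeHom _).comp G.subtype
  have h1 : (fun g => F (j g)) ∈ P092A2.coef j := by
    obtain ⟨p, hp⟩ := hF
    simp only [hp]
    clear hp
    induction p using MvPolynomial.induction_on with
    | C c => simp only [ev_C]; exact (P092A2.coef j).algebraMap_mem c
    | add p q hp hq => simp only [map_add]; exact (P092A2.coef j).add_mem hp hq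
    | mul_X p ij hp =>
      obtain ⟨a, b⟩ := ij
      simp only [map_mul, ev_X]; exact (P092A2.coef j).mul_mem hp (P092A2.mem_coef j a b)
  obtain ⟨W, h2, -, h3⟩ := P092A2.coef_le_rf j h1
  have : Module.Finite R W := Module.Finite.iff_fg.2 h2
  have h4 : Wf G F ≤ W := Submodule.span_le.2 (by rintro _ ⟨g, rfl⟩; exact h3 g)
  exact Module.Finite.iff_fg.1 (Submodule.finiteDimensional_of_le h4)

theorem Wf_pf {F : Mt n R → R} (hF : PF F) {φ : G → R} (h : φ ∈ Wf G F) :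
    ∃ Φ, PF Φ ∧ ∀ w : G, φ w = Φ ((w : GL (Fin n) R) : Mt n R) := by
  induction h using Submodule.span_induction with
  | mem _ h =>
    obtain ⟨g, rfl⟩ := h
    exact ⟨_, hF.lr 1 ((g : GL (Fin n) R) : Mt n R), fun w => by simp⟩
  | zero => exact ⟨_, PF.const 0, fun _ => rfl⟩
  | add _ _ _ _ h h' =>
    obtain ⟨Φ, h1, h2⟩ := h; obtain ⟨Φ', h3, h4⟩ := h'
    exact ⟨_, h1.add h3, fun w => by rw [Pi.add_apply, h2, h4]⟩
  | smul c _ _ h =>
    obtain ⟨Φ, h1, h2⟩ := h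
    exact ⟨_, (PF.const c).mul h1, fun w => by rw [Pi.smul_apply, h2, smul_eq_mul]⟩

theorem Wf_tr {F : Mt n R → R} {φ : G → R} (h : φ ∈ Wf G F) (g : G) :
    (fun w => φ (w * g)) ∈ Wf G F := by
  induction h using Submodule.span_induction with
  | mem _ h =>
    obtain ⟨g', rfl⟩ := h
    exact Submodule.subset_span ⟨g * g', by funext w; simp only [mul_assoc]⟩
  | zero => exact Submodule.zero_mem _
  | add _ _ _ _ h h' => exact Submodule.add_mem _ h h'
  | smul c _ _ h => exact Submodule.smul_mem _ c h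

/-- interpolation in the span of the translates -/
theorem interp {F : Mt n R → R} (hF : PF F) : ∃ (m : ℕ) (e : Fin m → G) (ψ : Fin m → G → R),
    (∀ j, ψ j ∈ Wf G F) ∧ ∀ φ ∈ Wf G F, ∀ w, φ w = ∑ j, ψ j w * φ (e j) := by
  obtain ⟨E, ψ, h1, h2⟩ := P092A2.exists_interp _ (Wf_fg (G := G) hF)
  refine ⟨E.card, fun j => E.equivFin.symm j, fun j => ψ (E.equivFin.symm j), fun j => h1 _,
    fun φ hφ w => ?_⟩
  rw [Equiv.sum_comp E.equivFin.symm (fun e : E => ψ e w * φ e), Finset.sum_coe_sort E fun e => ψ e w * φ e]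
  conv_lhs => rw [h2 φ hφ]
  simp [Finset.sum_apply, mul_comm]

theorem interp' {F : Mt n R → R} (hF : PF F) : ∃ (m : ℕ) (e : Fin m → GL (Fin n) R)
    (Ψ : Fin m → Mt n R → R), (∀ j, e j ∈ G) ∧ (∀ j, PF (Ψ j)) ∧ ∀ w ∈ G, ∀ g ∈ G,
      F ((w * g : GL (Fin n) R) : Mt n R) = ∑ j, Ψ j w * F ((e j * g : GL (Fin n) R) : Mt n R) := by
  obtain ⟨m, e, ψ, h1, h2⟩ := interp (G := G) hF
  choose Ψ h3 h4 using fun j => Wf_pf hF (h1 j)
  refine ⟨m, fun j => e j, Ψ, fun j => (e j).2, h3, fun w hw g hg => ?_⟩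
  have := h2 _ (Submodule.subset_span ⟨⟨g, hg⟩, rfl⟩) ⟨w, hw⟩
  simp only [h4] at this
  exact this

/-- the contraction of a matrix along `y` -/
def sc (y : Fin n → ℤ) (t : R) (x : Mt n R) : Mt n R := of fun i j => t ^ (y i - y j).toNat * x i j

theorem sc_pt (y : Fin n → ℤ) (x : Mt n R) (i j : Fin n) : PT fun t => sc y t x i j :=
  (PT.pow _).mul (PT.const _)

theorem sc_eq {p : GL (Fin n) R} (hp : p ∈ Pgl y) (t : Rˣ) :
    ((tor y t * p * (tor y t)⁻¹ : GL (Fin n) R) : Mt n R) = sc y (t : R) (p : Mt n R) := by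
  ext i j
  rw [Units.val_mul, Units.val_mul, tor_conj, sc, of_apply]
  by_cases h : y i < y j
  · rw [hp i j h, mul_zero, mul_zero]
  · rw [← zpow_natCast, Int.toNat_of_nonneg (by omega)]

theorem sc_zero {x : Mt n R} (hx : IsU y x) : sc y 0 x = 1 := by
  ext i j
  rw [sc, of_apply]
  by_cases h : y i ≤ y j
  · rw [Int.toNat_of_nonpos (by omega), pow_zero, one_mul, hx i j h]
  · rw [zero_pow (by omega), zero_mul, one_apply_ne (fun e => h (by rw [e]))]

theorem sc_one (x : Mt n R) : sc y 1 x = x := by ext i j; simp [sc]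

theorem mn_cases (y : Fin n → ℤ) (c : ℤ) :
    (∃ a, mn (R := R) y c = mn y (y a - 1)) ∨ mn (R := R) y c = fun _ => 1 := by
  by_cases h : ∃ a, c < y a
  · obtain ⟨a, ha, hm⟩ := Finset.exists_min_image (Finset.univ.filter fun a => c < y a) y
      (by obtain ⟨a, ha⟩ := h; exact ⟨a, by simpa using ha⟩)
    refine Or.inl ⟨a, ?_⟩
    have : P092AL.pj R y c = P092AL.pj R y (y a - 1) := by
      unfold P092AL.pj
      congr 1
      funext b
      have h1 := hm b
      simp only [Finset.mem_filter, Finset.mem_univ, true_and] at ha h1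
      exact if_congr (by constructor <;> intro <;> omega) rfl rfl
    funext x
    simp only [mn, P092AL.mn, P092AL.tr, this]
  · refine Or.inr ?_
    have : P092AL.pj R y c = 0 := by
      unfold P092AL.pj
      rw [← diagonal_zero]
      congr 1
      funext b
      exact if_neg fun e => h ⟨b, e⟩
    funext x
    simp [mn, P092AL.mn, P092AL.tr, this]

theorem mem_Hs {h : GL (Fin n) R} : h ∈ Hs G y ↔ h ∈ G ∧ ∀ x ∈ G,
    fy y ((x * h : GL (Fin n) R) : Mt n R) = fy y (x : Mt n R) * fy y (h : Mt n R) := Iff.rfl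

theorem Hs_le : Hs G y ≤ G := fun _ h => h.1

theorem P_le_Hs {p : GL (Fin n) R} (hG : p ∈ G) (hp : p ∈ Pgl y) : p ∈ Hs G y :=
  ⟨hG, fun x _ => fy_right hp _⟩

theorem Hs_ne {h : GL (Fin n) R} (hh : h ∈ Hs G y) : fy y (h : Mt n R) ≠ 0 := fun e => by
  have := hh.2 _ (G.inv_mem hh.1)
  rw [inv_mul_cancel, Units.val_one, fy_one, e, mul_zero] at this
  exact one_ne_zero this

theorem N_fy {u : GL (Fin n) R} (hu : u ∈ Hs G y ⊓ Ugl (-y)) {x : GL (Fin n) R} (hx : x ∈ G) :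
    fy y ((x * u : GL (Fin n) R) : Mt n R) = fy y (x : Mt n R) := by
  rw [hu.1.2 x hx, fy_U hu.2, mul_one]

theorem md_up_mem {g : GL (Fin n) R} (h : fy y (g : Mt n R) ≠ 0) : mdG y g * upG y g ∈ Pgl y :=
  (Pgl y).mul_mem (Lgl_le_Pgl y (mdG_mem h)) (Ugl_le_Pgl y (upG_mem y g))

theorem lo_md_mem {g : GL (Fin n) R} (h : fy y (g : Mt n R) ≠ 0) : loG y g * mdG y g ∈ Pgl (-y) :=
  (Pgl _).mul_mem (Ugl_le_Pgl _ (loG_mem y g)) (Lgl_le_Pgl_neg y (mdG_mem h))

theorem tor_conj_mem (hy : y ∈ Y G) {g : GL (Fin n) R} (hg : g ∈ G) (t : Rˣ) :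
    tor y t * g * (tor y t)⁻¹ ∈ G := G.mul_mem (G.mul_mem (hy t) hg) (G.inv_mem (hy t))

theorem N_conj {z u : GL (Fin n) R} (hz : z ∈ G ⊓ Lgl y) (hu : u ∈ Hs G y ⊓ Ugl (-y)) :
    z * u * z⁻¹ ∈ Hs G y ⊓ Ugl (-y) :=
  have h := P_le_Hs hz.1 (Lgl_le_Pgl y hz.2)
  ⟨(Hs G y).mul_mem ((Hs G y).mul_mem h hu.1) ((Hs G y).inv_mem h),
    conj_mem_Ugl (Lgl_le_Pgl_neg y hz.2) hu.2⟩

theorem PT.eq_of_units [Infinite R] {F : R → R} (h : PT F) {c : R} (hc : ∀ t : Rˣ, F t = c) (t : R) :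
    F t = c := by
  obtain ⟨q, hq⟩ := h
  have : q = Polynomial.C c := Polynomial.eq_of_infinite_eval_eq _ _
    (((Set.finite_singleton (0 : R)).infinite_compl).mono fun s hs => by
      have : F s = c := hc (Units.mk0 s hs)
      simpa [hq] using this)
  rw [hq, this, Polynomial.eval_C]

theorem pt_const [Infinite R] {ι : Type} [Fintype ι] {F : ι → R → R} (h : ∀ i, PT (F i))
    (h1 : ∀ t : Rˣ, ∏ i, F i t = 1) (i : ι) (s t : R) : F i s = F i t := by
  classical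
  choose q hq using h
  have h2 : ∏ i, q i = 1 := Polynomial.eq_of_infinite_eval_eq _ _
    (((Set.finite_singleton (0 : R)).infinite_compl).mono fun s hs => by
      have : ∏ i, F i s = 1 := h1 (Units.mk0 s hs)
      simpa [hq, Polynomial.eval_prod] using this)
  have h3 : IsUnit (q i) := isUnit_of_dvd_one (h2 ▸ Finset.dvd_prod_of_mem _ (Finset.mem_univ i))
  obtain ⟨r, -, hr⟩ := Polynomial.isUnit_iff.1 h3
  rw [hq, hq, ← hr, Polynomial.eval_C, Polynomial.eval_C]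

/-- a polynomial identity on the big cell holds on `G` -/
theorem eq_of_cell (hp : (van (G : Set (GL (Fin n) R))).IsPrime) {F F' : Mt n R → R} (hF : PF F)
    (hF' : PF F') (h : ∀ x ∈ G, fy y (x : Mt n R) ≠ 0 → F x = F' x) {x : GL (Fin n) R} (hx : x ∈ G) :
    F x = F' x := by
  obtain ⟨p, h1⟩ := hF.sub hF'
  obtain ⟨q, h2⟩ := pf_fy (R := R) y
  have h3 : p * q ∈ van (G : Set (GL (Fin n) R)) := fun g hg => by
    rw [map_mul, ← h1, ← h2]
    by_cases e : fy y (g : Mt n R) = 0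
    · rw [e, mul_zero]
    · simp only [h g hg e, sub_self, zero_mul]
  rcases hp.mem_or_mem h3 with h4 | h4
  · exact sub_eq_zero.1 ((h1 _).trans (h4 x hx))
  · have := h4 1 G.one_mem
    rw [← h2, Units.val_one, fy_one] at this
    exact absurd this one_ne_zero

end Alg

section Top

variable {n : ℕ} {k : Type} [NontriviallyNormedField k] {G : Subgroup (GL (Fin n) k)}
  {𝔤 : Submodule k (Mt n k)} {y : Fin n → ℤ}

theorem Cell.loN (hc : Cell G) (hy : y ∈ Y G) {h : GL (Fin n) k} (hh : h ∈ Hs G y) :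
    loG y h ∈ Hs G y ⊓ Ugl (-y) := by
  have h0 := Hs_ne hh
  refine ⟨?_, loG_mem y h⟩
  have : loG y h = h * (mdG y h * upG y h)⁻¹ := by
    rw [eq_mul_inv_iff_mul_eq, ← mul_assoc, lmu]
  rw [this]
  exact (Hs G y).mul_mem hh ((Hs G y).inv_mem (P_le_Hs
    (G.mul_mem (hc.md hy hh.1 h0) (hc y hy h hh.1 h0).2) (md_up_mem h0)))

theorem mem_N_of (hn : Nice G 𝔤) (hc : Cell G) (hy : y ∈ Y G) {u : GL (Fin n) k} (hu : u ∈ G ⊓ Ugl (-y))
    (h : ∀ v ∈ G ⊓ Ugl y, fy y ((v * u : GL (Fin n) k) : Mt n k) = 1) : u ∈ Hs G y ⊓ Ugl (-y) := by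
  refine ⟨⟨hu.1, fun x hx => ?_⟩, hu.2⟩
  rw [fy_U hu.2, mul_one]
  have := eq_of_cell (y := y) hn.prime ((pf_fy y).lr 1 (u : Mt n k)) (pf_fy y) (fun x hx h0 => by
    have h1 := h _ ⟨(hc y hy x hx h0).2, upG_mem y x⟩
    conv_lhs => rw [one_mul, ← lmu y x, Units.val_mul, mul_assoc, fy_left (lo_md_mem h0),
      ← Units.val_mul, h1, mul_one]
    conv_rhs => rw [← lmu y x, Units.val_mul, fy_right (Ugl_le_Pgl y (upG_mem y x)),
      fy_U (upG_mem y x), mul_one]) hx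
  rwa [one_mul] at this

theorem N_mn (hn : Nice G 𝔤) (hc : Cell G) (hy : y ∈ Y G) {u : GL (Fin n) k}
    (hu : u ∈ Hs G y ⊓ Ugl (-y)) (a : ℤ) {x : GL (Fin n) k} (hx : x ∈ G) :
    mn y a ((x * u : GL (Fin n) k) : Mt n k) = mn y a (x : Mt n k) := by
  have : Infinite k := inferInstance
  have h1 : ∀ v ∈ G ⊓ Ugl y, mn y a ((v : Mt n k) * (u : Mt n k)) = 1 := fun v hv => by
    rcases mn_cases (R := k) y a with ⟨b, hb⟩ | hb
    · rw [hb]
      have h2 : ∀ c, PT fun t => mn y c (sc y t (v : Mt n k) * (u : Mt n k)) := fun c =>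
        (pf_mn y c).pt (PT.mulE (sc_pt y _) fun _ _ => PT.const _)
      have h3 := pt_const (ι := Fin n × Bool)
        (F := fun i t => mn y (if i.2 then y i.1 else y i.1 - 1) (sc y t (v : Mt n k) * (u : Mt n k)))
        (fun i => h2 _) (fun t => by
          rw [Fintype.prod_prod_type]
          simp only [Fintype.prod_bool, if_true, Bool.false_eq_true, if_false]
          have := N_fy hu (tor_conj_mem hy hv.1 t)
          rwa [Units.val_mul, fy_U (conj_mem_Ugl (Lgl_le_Pgl y (tor_mem_Lgl y y t)) hv.2),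
            sc_eq (Ugl_le_Pgl y hv.2)] at this) (b, false) 1 0
      simp only [Bool.false_eq_true, if_false, sc_one, sc_zero hv.2, one_mul] at h3
      rw [h3, mn_U hu.2]
    · rw [hb]
  have := eq_of_cell (y := y) hn.prime ((pf_mn y a).lr 1 (u : Mt n k)) (pf_mn y a) (fun x hx h0 => by
    conv_lhs => rw [one_mul, ← lmu y x, Units.val_mul, mul_assoc, mn_left (lo_md_mem h0),
      h1 _ ⟨(hc y hy x hx h0).2, upG_mem y x⟩, mul_one]
    conv_rhs => rw [← lmu y x, Units.val_mul, mn_right (Ugl_le_Pgl y (upG_mem y x)),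
      mn_U (upG_mem y x), mul_one]) hx
  rwa [one_mul] at this

/-- every principal minor is a character of `Hs` -/
theorem Hs_mn (hn : Nice G 𝔤) (hc : Cell G) (hy : y ∈ Y G) {h : GL (Fin n) k} (hh : h ∈ Hs G y)
    (a : ℤ) {x : GL (Fin n) k} (hx : x ∈ G) :
    mn y a ((x * h : GL (Fin n) k) : Mt n k) = mn y a (x : Mt n k) * mn y a (h : Mt n k) := by
  have h0 := Hs_ne hh
  have h1 : x * h = x * loG y h * (mdG y h * upG y h) := by rw [mul_assoc, ← mul_assoc (loG y h), lmu]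
  have h2 : mn y a (h : Mt n k) = mn y a ((mdG y h * upG y h : GL (Fin n) k) : Mt n k) := by
    rw [Units.val_mul, mn_right (Ugl_le_Pgl y (upG_mem y h)), mn_U (upG_mem y h), mul_one, mn_mdG]
  rw [h1, Units.val_mul, mn_right (md_up_mem h0), N_mn hn hc hy (hc.loN hy hh) a hx, h2]

/-- boundedness of the translates of a polynomial function implies boundedness -/
theorem Simp.bdd (hs : Simp G) {F : Mt n k → k} (hF : PF F)
    (h1 : ∃ w ∈ G, ∃ g ∈ G, F ((w * g : GL (Fin n) k) : Mt n k) ≠ F (w : Mt n k))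
    {A : Set (GL (Fin n) k)} (hA : A ⊆ G) (hi : ∀ z ∈ A, z⁻¹ ∈ A)
    (hb : ∀ w ∈ G, ∀ w' ∈ G, ∃ C, ∀ z ∈ A, ‖F ((w * z * w' : GL (Fin n) k) : Mt n k)‖ ≤ C) :
    ∃ r, ∀ z ∈ A, ‖(z : Mt n k)‖ ≤ r := by
  obtain ⟨m, e, ψ, h2, h3⟩ := interp (G := G) hF
  let σ : G → Mt m k := fun g => of fun i j => ψ j (e i * g)
  have hσ : ∀ g h, σ g * σ h = σ (g * h) := fun g h => by
    ext i j
    rw [mul_apply]
    have := h3 _ (Wf_tr (h2 j) h) (e i * g)
    simp only [σ, of_apply, ← mul_assoc, this]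
  let ρ : G →* Mt m k :=
    { toFun := fun g => σ g + (1 - σ 1)
      map_one' := add_sub_cancel _ _
      map_mul' := fun g h => by
        simp only [add_mul, mul_add, mul_sub, sub_mul, hσ, mul_one, one_mul]
        abel }
  have h4 : ∀ φ ∈ Wf G F, ∀ w : G, ∃ C, ∀ z : G, (z : GL (Fin n) k) ∈ A → ‖φ (w * z)‖ ≤ C := by
    intro φ hφ w
    induction hφ using Submodule.span_induction with
    | mem _ h =>
      obtain ⟨g, rfl⟩ := h
      obtain ⟨C, hC⟩ := hb w w.2 g g.2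
      exact ⟨C, fun z hz => hC z hz⟩
    | zero => exact ⟨0, fun _ _ => by simp⟩
    | add _ _ _ _ h h' =>
      obtain ⟨C, h⟩ := h; obtain ⟨C', h'⟩ := h'
      exact ⟨C + C', fun z hz => (norm_add_le _ _).trans (add_le_add (h z hz) (h' z hz))⟩
    | smul c _ _ h =>
      obtain ⟨C, h⟩ := h
      exact ⟨‖c‖ * C, fun z hz => by
        rw [Pi.smul_apply, norm_smul]; exact mul_le_mul_of_nonneg_left (h z hz) (norm_nonneg _)⟩
  choose C hC using fun (i j : Fin m) => h4 _ (h2 j) (e i)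
  obtain ⟨D, hD⟩ := (Set.finite_range fun p : Fin m × Fin m => C p.1 p.2).bddAbove
  have h5 : ∀ z : G, (z : GL (Fin n) k) ∈ A → ‖ρ z‖ ≤ max D 0 + ‖1 - σ 1‖ := fun z hz =>
    (norm_add_le _ _).trans (add_le_add_left ((norm_le_iff (le_max_right _ _)).2 fun i j =>
      ((hC i j z hz).trans (hD ⟨(i, j), rfl⟩)).trans (le_max_left _ _)) _)
  obtain ⟨r, hr⟩ := hs.prop m ρ (fun i j => by
    obtain ⟨Φ, h6, h7⟩ := Wf_pf hF (h2 j)
    obtain ⟨p, hp⟩ := (h6.lr ((e i : GL (Fin n) k) : Mt n k) 1).add (PF.const ((1 - σ 1) i j))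
    refine ⟨p, fun g => ?_⟩
    rw [← hp]
    simp [ρ, σ, h7]) (by
    obtain ⟨w, hw, g, hg, h6⟩ := h1
    refine ⟨⟨g, hg⟩, fun h7 => h6 ?_⟩
    have h8 : σ ⟨g, hg⟩ = σ 1 := by
      have : σ ⟨g, hg⟩ + (1 - σ 1) = 1 := h7
      rw [← sub_eq_zero, ← add_left_inj (1 : Mt m k), zero_add]
      conv_rhs => rw [← this]
      abel
    have h9 : (fun w : G => F ((w * 1 : G) : GL (Fin n) k)) ∈ Wf G F := Submodule.subset_span ⟨1, rfl⟩
    have a1 := h3 _ (Wf_tr h9 ⟨g, hg⟩) ⟨w, hw⟩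
    have a2 := h3 _ h9 ⟨w, hw⟩
    have a3 : ∀ i, F ((e i * ⟨g, hg⟩ * 1 : G) : GL (Fin n) k) = F ((e i * 1 : G) : GL (Fin n) k) := by
      intro i
      have b1 := h3 _ h9 (e i * ⟨g, hg⟩)
      have b2 := h3 _ h9 (e i * 1)
      have b3 : ∀ j, ψ j (e i * ⟨g, hg⟩) = ψ j (e i * 1) := fun j => congrFun (congrFun h8 i) j
      simp only [b3] at b1
      rw [b1, ← b2, mul_one, mul_one]
    simp only [a3] at a1
    simpa using a1.trans a2.symm) (max D 0 + ‖1 - σ 1‖)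
  exact ⟨r, fun z hz => hr ⟨z, hA hz⟩ (h5 _ hz) (h5 _ (hi z hz))⟩

end Top

end Vale.Agent.P092AG
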