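import Vale.Agent.P092AG.Basic

/-!
P092, group side (helper91): the big cell of `GL_n` in terms of subgroups.
-/

set_option linter.all false

open Matrix Filter Topology
open scoped Matrix.Norms.Elementwise

namespace Vale.Agent.P092AG

open Vale.Agent.P092AL (Pp Lv Un)

section Alg

variable {n : ℕ} {R : Type} [Field R] {y : Fin n → ℤ}

theorem isP_pp {x : Mt n R} : IsP y x ↔ Pp y x :=
  ⟨fun h a b e => by by_contra c; exact e (h a b (by omega)),
    fun h a b e => by by_contra c; have := h a b c; omega⟩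

theorem isL_lv {x : Mt n R} : IsL y x ↔ Lv y x :=
  ⟨fun h a b e => by by_contra c; exact e (h a b c), fun h a b e => by by_contra c; exact e (h a b c)⟩

theorem isU_un {x : Mt n R} : IsU y x ↔ Un y x :=
  ⟨fun h a b e => by
    by_contra c
    exact e (by rw [Matrix.sub_apply, h a b (by omega), sub_self]), fun h a b e => h.diag e⟩

theorem gl_unit (g : GL (Fin n) R) : IsUnit (g : Mt n R).det := (isUnit_iff_isUnit_det _).1 g.isUnit

theorem loG_mem (y : Fin n → ℤ) (g : GL (Fin n) R) : loG y g ∈ Ugl (-y) := isU_un.2 P092AL.un_lo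

theorem upG_mem (y : Fin n → ℤ) (g : GL (Fin n) R) : upG y g ∈ Ugl y := isU_un.2 P092AL.un_up

theorem mdG_val (y : Fin n → ℤ) (g : GL (Fin n) R) :
    ((mdG y g : GL (Fin n) R) : Mt n R) = P092AL.md y (g : Mt n R) := rfl

theorem mdG_mem {g : GL (Fin n) R} (h : fy y (g : Mt n R) ≠ 0) : mdG y g ∈ Lgl y :=
  isL_lv.2 (P092AL.lv_md (IsUnit.mk0 _ h))

theorem lmu (y : Fin n → ℤ) (g : GL (Fin n) R) : loG y g * mdG y g * upG y g = g := by
  rw [mdG]; group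

theorem lmu_eq {v z u : GL (Fin n) R} (hv : v ∈ Ugl (-y)) (hz : z ∈ Lgl y) (hu : u ∈ Ugl y) :
    loG y (v * z * u) = v ∧ mdG y (v * z * u) = z ∧ upG y (v * z * u) = u := by
  obtain ⟨h1, h2, h3⟩ := P092AL.ldu_eq (isU_un.1 hv) (isL_lv.1 hz) (isU_un.1 hu) (gl_unit z)
  exact ⟨Units.ext h1, Units.ext h2, Units.ext h3⟩

theorem loG_eq {v p : GL (Fin n) R} (hv : v ∈ Ugl (-y)) (hp : p ∈ Pgl y) : loG y (v * p) = v :=
  Units.ext (P092AL.lo_eq (isU_un.1 hv) (isP_pp.1 hp) (gl_unit p))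

theorem upG_eq {p u : GL (Fin n) R} (hp : p ∈ Pgl (-y)) (hu : u ∈ Ugl y) : upG y (p * u) = u :=
  Units.ext (P092AL.up_eq (isP_pp.1 hp) (isU_un.1 hu) (gl_unit p))

theorem mn_right {p : GL (Fin n) R} (hp : p ∈ Pgl y) (a : ℤ) (x : Mt n R) :
    mn y a (x * (p : Mt n R)) = mn y a x * mn y a (p : Mt n R) := P092AL.mn_mul_right (isP_pp.1 hp) x

theorem mn_left {p : GL (Fin n) R} (hp : p ∈ Pgl (-y)) (a : ℤ) (x : Mt n R) :
    mn y a ((p : Mt n R) * x) = mn y a (p : Mt n R) * mn y a x := P092AL.mn_mul_left (isP_pp.1 hp) x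

theorem fy_right {p : GL (Fin n) R} (hp : p ∈ Pgl y) (x : Mt n R) :
    fy y (x * (p : Mt n R)) = fy y x * fy y (p : Mt n R) := P092AL.ff_mul_right (isP_pp.1 hp) x

theorem fy_left {p : GL (Fin n) R} (hp : p ∈ Pgl (-y)) (x : Mt n R) :
    fy y ((p : Mt n R) * x) = fy y (p : Mt n R) * fy y x := P092AL.ff_mul_left (isP_pp.1 hp) x

theorem mn_U {y' : Fin n → ℤ} {u : GL (Fin n) R} (hu : u ∈ Ugl y') (a : ℤ) :
    mn y a (u : Mt n R) = 1 := (isU_un.1 hu).mn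

theorem fy_U {y' : Fin n → ℤ} {u : GL (Fin n) R} (hu : u ∈ Ugl y') : fy y (u : Mt n R) = 1 :=
  (isU_un.1 hu).ff

theorem mn_P_ne {p : GL (Fin n) R} (hp : p ∈ Pgl y) (a : ℤ) : mn y a (p : Mt n R) ≠ 0 :=
  ((isP_pp.1 hp).mn_unit (gl_unit p)).ne_zero

theorem fy_P_ne {p : GL (Fin n) R} (hp : p ∈ Pgl y) : fy y (p : Mt n R) ≠ 0 :=
  ((isP_pp.1 hp).ff_unit (gl_unit p)).ne_zero

theorem mn_ne_of_fy {x : Mt n R} (h : fy y x ≠ 0) (a : ℤ) : mn y a x ≠ 0 :=
  ne_zero_of_dvd_ne_zero h (P092AL.mn_dvd _ _ _)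

theorem mn_mdG (a : ℤ) (g : GL (Fin n) R) :
    mn y a ((mdG y g : GL (Fin n) R) : Mt n R) = mn y a (g : Mt n R) := P092AL.mn_md

theorem fy_mdG (g : GL (Fin n) R) : fy y ((mdG y g : GL (Fin n) R) : Mt n R) = fy y (g : Mt n R) :=
  P092AL.ff_md

theorem fy_neg {g : GL (Fin n) R} (hd : (g : Mt n R).det = 1) :
    fy (-y) (g : Mt n R) = fy y ((g⁻¹ : GL (Fin n) R) : Mt n R) :=
  P092AL.ff_neg (by rw [← Units.val_mul, mul_inv_cancel, Units.val_one]) hd

theorem eq_one_of_U_P {u : GL (Fin n) R} (hu : u ∈ Ugl (-y)) (hp : u ∈ Pgl y) : u = 1 :=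
  Units.ext ((isU_un.1 hu).eq_one (by rw [neg_neg]; exact isP_pp.1 hp))

theorem loG_P {p : GL (Fin n) R} (hp : p ∈ Pgl y) : loG y p = 1 := by
  have := loG_eq (Subgroup.one_mem _) hp
  rwa [one_mul] at this

theorem det_U {u : GL (Fin n) R} (hu : u ∈ Ugl y) : (u : Mt n R).det = 1 := (isU_un.1 hu).det

theorem Lgl_le_Pgl_neg (y : Fin n → ℤ) : Lgl (R := R) y ≤ Pgl (-y) := by
  rw [← Lgl_neg]; exact Lgl_le_Pgl _

theorem fy_conj_tor (y' : Fin n → ℤ) (t : Rˣ) (x : Mt n R) :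
    fy y (((tor y' t : GL (Fin n) R) : Mt n R) * x * (((tor y' t)⁻¹ : GL (Fin n) R) : Mt n R)) = fy y x := by
  have h1 : (tor y' t)⁻¹ ∈ Pgl (R := R) y := Subgroup.inv_mem _ (Lgl_le_Pgl y (tor_mem_Lgl y' y t))
  rw [fy_right h1, fy_left (Lgl_le_Pgl_neg y (tor_mem_Lgl y' y t)), mul_right_comm, ← fy_right h1,
    ← Units.val_mul, mul_inv_cancel, Units.val_one, fy_one, one_mul]

end Alg

section Top

variable {n : ℕ} {k : Type} [NontriviallyNormedField k] {y : Fin n → ℤ}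

theorem contAt_loG {g : GL (Fin n) k} (h : fy y (g : Mt n k) ≠ 0) : ContinuousAt (loG y) g :=
  emb_val.isInducing.continuousAt_iff.2
    ((P092AL.contAt_lo h).comp (f := fun g : GL (Fin n) k => (g : Mt n k)) Units.continuous_val.continuousAt)

theorem contAt_upG {g : GL (Fin n) k} (h : fy y (g : Mt n k) ≠ 0) : ContinuousAt (upG y) g :=
  emb_val.isInducing.continuousAt_iff.2
    ((P092AL.contAt_up h).comp (f := fun g : GL (Fin n) k => (g : Mt n k)) Units.continuous_val.continuousAt)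

theorem contAt_mdG {g : GL (Fin n) k} (h : fy y (g : Mt n k) ≠ 0) : ContinuousAt (mdG y) g :=
  (((contAt_loG h).inv).mul continuousAt_id).mul (contAt_upG h).inv

/-- the factors of the elements of the big cell of `G` are in `G` -/
def Cell (G : Subgroup (GL (Fin n) k)) : Prop :=
  ∀ y ∈ Y G, ∀ g ∈ G, fy y (g : Mt n k) ≠ 0 → loG y g ∈ G ∧ upG y g ∈ G

theorem Cell.md {G : Subgroup (GL (Fin n) k)} (h : Cell G) (hy : y ∈ Y G) {g : GL (Fin n) k}
    (hg : g ∈ G) (hf : fy y (g : Mt n k) ≠ 0) : mdG y g ∈ G :=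
  G.mul_mem (G.mul_mem (G.inv_mem (h y hy g hg hf).1) hg) (G.inv_mem (h y hy g hg hf).2)

end Top

end Vale.Agent.P092AG
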