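import Vale.Agent.P092AG.Lin
import Vale.Agent.P092A2.Zmt

/-!
P092, group side (helper91): simple modules of the span of `Hs` have one weight.
-/

set_option linter.all false

open Matrix Filter Topology
open scoped Matrix.Norms.Elementwise Classical

namespace Vale.Agent.P092AG

open Vale.Agent.P092TO

section SR

variable {n : ℕ} {K : Type} [Field K]

/-- a simple representation of the algebra `A` -/
structure SR (A : Subalgebra K (Mt n K)) {m : ℕ} (σ : Mt n K →ₗ[K] Mt m K) : Prop where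
  pos : 0 < m
  one : σ 1 = 1
  mul : ∀ x ∈ A, ∀ x' ∈ A, σ (x * x') = σ x * σ x'
  surj : ∀ T, ∃ x ∈ A, σ x = T

theorem inv_mem_sub (S : Subalgebra K (Mt n K)) {M : Mt n K} (h : M ∈ S) (e : M.det ≠ 0) : M⁻¹ ∈ S := by
  have e1 := nonsing_inv_mul M (IsUnit.mk0 _ e)
  have hi : Function.Injective (LinearMap.mulLeft K (⟨M, h⟩ : S)) := fun x y c => by
    have := congrArg (fun z : S => M⁻¹ * z.1) c
    simp only [LinearMap.mulLeft_apply, MulMemClass.coe_mul, ← mul_assoc, e1, one_mul] at this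
    exact Subtype.ext this
  obtain ⟨x, hx⟩ := LinearMap.injective_iff_surjective.1 hi 1
  have h2 : M * x.1 = 1 := congrArg Subtype.val hx
  rw [inv_eq_right_inv h2]
  exact x.2

theorem SR.det_ne {A : Subalgebra K (Mt n K)} {m : ℕ} {σ : Mt n K →ₗ[K] Mt m K} (h : SR A σ)
    {x : Mt n K} (hx : x ∈ A) (e : x.det ≠ 0) : (σ x).det ≠ 0 := fun h0 => by
  have := congrArg det (h.mul _ hx _ (inv_mem_sub A hx e))
  rw [mul_nonsing_inv _ (IsUnit.mk0 _ e), h.one, det_one, det_mul, h0, zero_mul] at this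
  exact one_ne_zero this

theorem exists_simple [IsAlgClosed K] {A : Type} [Ring A] [Algebra K A] [Module.Finite K A] (x : A)
    (hx : ∀ a, a * x ≠ 1) :
    ∃ (m : ℕ) (σ : A →ₐ[K] Mt m K), 0 < m ∧ Function.Surjective σ ∧ (σ x).det = 0 := by
  have h1 : Ideal.span {x} ≠ ⊤ := fun e => by
    obtain ⟨a, ha⟩ := Ideal.mem_span_singleton'.1 (e.ge (Submodule.mem_top (x := (1 : A))))
    exact hx a ha
  obtain ⟨I, hI, h2⟩ := Ideal.exists_le_maximal _ h1
  have hs : IsSimpleModule A (A ⧸ (I : Submodule A A)) := isSimpleModule_iff_isCoatom.2 hI.out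
  have := hs.nontrivial
  let σ0 : A →ₐ[K] Module.End K (A ⧸ (I : Submodule A A)) := Algebra.lsmul K K _
  have : Module.Finite K (A ⧸ (I : Submodule A A)) :=
    Module.Finite.of_surjective ((I : Submodule A A).mkQ.restrictScalars K) (Submodule.mkQ_surjective _)
  have h3 : σ0.range = ⊤ := P092A2.burnside _ fun W hW => by
    let W' : Submodule A (A ⧸ (I : Submodule A A)) :=
      { W.toAddSubmonoid with smul_mem' := fun a v hv => hW _ ⟨a, rfl⟩ v hv }
    rcases eq_bot_or_eq_top W' with e | e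
    · exact Or.inl ((Submodule.eq_bot_iff _).2 ((Submodule.eq_bot_iff W').1 e))
    · exact Or.inr (Submodule.eq_top_iff'.2 ((Submodule.eq_top_iff' (p := W')).1 e))
  let b := Module.finBasis K (A ⧸ (I : Submodule A A))
  refine ⟨_, (LinearMap.toMatrixAlgEquiv b).toAlgHom.comp σ0, Module.finrank_pos,
    (LinearMap.toMatrixAlgEquiv b).surjective.comp ((AlgHom.range_eq_top _).1 h3), ?_⟩
  change (LinearMap.toMatrix b b (σ0 x)).det = 0
  rw [LinearMap.det_toMatrix]
  refine LinearMap.det_eq_zero_iff_ker_ne_bot.2 fun e => hI.ne_top ?_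
  have h5 : (Submodule.Quotient.mk 1 : A ⧸ (I : Submodule A A)) ∈ LinearMap.ker (σ0 x) := by
    change x • (Submodule.Quotient.mk 1 : A ⧸ (I : Submodule A A)) = 0
    rw [← Submodule.Quotient.mk_smul, Submodule.Quotient.mk_eq_zero, smul_eq_mul, mul_one]
    exact h2 (Ideal.subset_span rfl)
  rw [e, Submodule.mem_bot, Submodule.Quotient.mk_eq_zero] at h5
  exact (Ideal.eq_top_iff_one _).2 h5

theorem unit_of [IsAlgClosed K] (A : Subalgebra K (Mt n K)) {x : Mt n K} (hx : x ∈ A)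
    (h : ∀ (m : ℕ) (σ : Mt n K →ₗ[K] Mt m K), SR A σ → (σ x).det ≠ 0) : x.det ≠ 0 := fun h0 => by
  obtain ⟨m, σ1, h1, h2, h3⟩ := exists_simple (K := K) (⟨x, hx⟩ : A) fun a ha => by
    have h4 : a.1 * x = 1 := congrArg Subtype.val ha
    have := congrArg det h4
    rw [det_mul, h0, mul_zero, det_one] at this
    exact zero_ne_one this
  obtain ⟨σ, hσ⟩ := LinearMap.exists_extend (p := A.toSubmodule) σ1.toLinearMap
  have h4 : ∀ a : A, σ a = σ1 a := fun a => LinearMap.congr_fun hσ a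
  refine h _ σ ⟨h1, (h4 1).trans (map_one _), fun a ha a' ha' => ?_, fun T => ?_⟩ ((congrArg det
    (h4 ⟨x, hx⟩)).trans h3)
  · exact (h4 (⟨a, ha⟩ * ⟨a', ha'⟩)).trans (by rw [map_mul, ← h4, ← h4])
  · obtain ⟨a, ha⟩ := h2 T
    exact ⟨a, a.2, (h4 a).trans ha⟩

/-- the projector on the weight `c` -/
def Ep (R : Type) [Field R] (y : Fin n → ℤ) (c : ℤ) : Mt n R := diagonal fun i => if y i = c then 1 else 0

variable {R : Type} [Field R] {y : Fin n → ℤ}

theorem Ep_mul (c : ℤ) (x : Mt n R) (i j : Fin n) : (Ep R y c * x) i j = if y i = c then x i j else 0 := by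
  simp [Ep, diagonal_mul]

theorem mul_Ep (c : ℤ) (x : Mt n R) (i j : Fin n) : (x * Ep R y c) i j = if y j = c then x i j else 0 := by
  simp [Ep, mul_diagonal]

theorem sum_Ep (f : ℤ → R) : ∑ c ∈ Finset.univ.image y, f c • Ep R y c = diagonal fun i => f (y i) := by
  ext i j
  rw [Matrix.sum_apply, Finset.sum_eq_single (y i)]
  · by_cases h : i = j <;> simp [Ep, h]
  · intro c _ hc
    by_cases h : i = j <;> simp [Ep, h, diagonal_apply]
    exact fun e => absurd (h ▸ e.symm) hc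
  · simp

theorem Ep_Ep (c c' : ℤ) : Ep R y c * Ep R y c' = if c = c' then Ep R y c else 0 := by
  ext i j
  rw [Ep_mul]
  by_cases h : c = c'
  · subst h; by_cases h : i = j <;> simp [Ep, h, diagonal_apply]
  · by_cases h1 : y i = c
    · subst h1
      by_cases h2 : i = j
      · subst h2; simp [Ep, h]
      · simp [Ep, h, h2]
    · simp [h, h1]

theorem tor_Ep (t : Rˣ) (c : ℤ) :
    ((tor y t : GL (Fin n) R) : Mt n R) * Ep R y c = (t : R) ^ c • Ep R y c := by
  ext i j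
  rw [tor_val, diagonal_mul, Matrix.smul_apply, smul_eq_mul]
  by_cases h : y i = c
  · rw [h]
  · by_cases h2 : i = j
    · subst h2; simp [Ep, h]
    · simp [Ep, h2]

theorem key_block {u z v : Mt n R} (hu : IsU (-y) u) (hz : IsL y z) (hv : IsU y v) (a : ℤ) :
    Ep R y a * u * (1 - P092AL.pj R y a) * z * (1 - P092AL.pj R y a) * v * Ep R y a =
      Ep R y a * z * Ep R y a := by
  have h1 : Ep R y a * u * (1 - P092AL.pj R y a) = Ep R y a := by
    ext i j
    rw [mul_sub, mul_one, Matrix.sub_apply, P092AL.mul_pj_apply, Ep_mul]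
    conv_rhs => rw [← mul_one (Ep R y a), Ep_mul]
    split_ifs with h h'
    · rw [sub_self, one_apply_ne (fun e => by rw [e] at h; omega)]
    · rw [sub_zero]; exact hu i j (by simp only [Pi.neg_apply]; omega)
    · simp
    · simp
  have h2 : (1 - P092AL.pj R y a) * v * Ep R y a = Ep R y a := by
    ext i j
    rw [mul_Ep, sub_mul, one_mul, Matrix.sub_apply, P092AL.pj_mul_apply]
    conv_rhs => rw [← one_mul (Ep R y a), mul_Ep]
    split_ifs with h h'
    · rw [sub_self, one_apply_ne (fun e => by rw [e] at h'; omega)]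
    · rw [sub_zero]; exact hv i j (by omega)
    · rfl
  rw [h1, mul_assoc _ _ v, mul_assoc, h2]

end SR

variable {n : ℕ} {k : Type} [NontriviallyNormedField k] {G : Subgroup (GL (Fin n) k)}
  {𝔤 : Submodule k (Mt n k)} {y : Fin n → ℤ}

theorem mn_bk (hy : Reg G y) {z : GL (Fin n) k} (hz : z ∈ Lgl y) (i : Fin n) :
    mn y (y i - 1) (z : Mt n k) = mn y (y i) (z : Mt n k) * (bk G i z).det := by
  classical
  have h1 : P092AL.tr y (y i - 1) (z : Mt n k) = P092AL.tr y (y i) (z : Mt n k) *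
      of fun a b => if y a = y i then (z : Mt n k) a b else (1 : Mt n k) a b := by
    have hp : ∀ c a b, P092AL.tr y c (z : Mt n k) a b =
        if c < y a then (z : Mt n k) a b else (1 : Mt n k) a b := fun c a b => by
      rw [P092AL.tr, Matrix.add_apply, Matrix.sub_apply, P092AL.mul_pj_apply, P092AL.pj_mul_apply,
        ← mul_one (P092AL.pj k y c), P092AL.pj_mul_apply]
      split_ifs with h1 h2 h2
      · simp
      · simp
      · rw [hz a b (by omega)]; simp
      · simp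
    ext a b
    rw [hp, mul_apply]
    simp only [hp, of_apply]
    by_cases h : y i < y a
    · rw [if_pos (by omega)]
      conv_lhs => rw [← mul_one (z : Mt n k), mul_apply]
      refine Finset.sum_congr rfl fun l _ => ?_
      rw [if_pos h]
      by_cases h' : y l = y i
      · rw [hz a l (by omega), zero_mul, zero_mul]
      · rw [if_neg h']
    · simp only [if_neg h]
      rw [Finset.sum_eq_single a (fun l _ hl => by rw [one_apply_ne hl.symm, zero_mul]) (by simp),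
        one_apply_eq, one_mul]
      exact if_congr (by omega) rfl rfl
  have h2 : ∀ a, Sim G i a ↔ y a = y i := fun a => ⟨fun h => (h y hy.1).symm, fun h => hy.2 _ _ h.symm⟩
  rw [mn, P092AL.mn, h1, det_mul, twoBlockTriangular_det (of _) (Sim G i)]
  · have h3 : toSquareBlockProp (of fun a b => if y a = y i then (z : Mt n k) a b else (1 : Mt n k) a b)
        (fun a => ¬Sim G i a) = 1 := by
      ext a b
      simp [toSquareBlockProp, toBlock, ← h2, a.2, one_apply, Subtype.ext_iff]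
    have h4 : toSquareBlockProp (of fun a b => if y a = y i then (z : Mt n k) a b else (1 : Mt n k) a b)
        (Sim G i) = bk G i z := by
      ext a b
      simp [toSquareBlockProp, toBlock, ← h2, a.2, bk]
    rw [h3, det_one, mul_one, h4]
    rfl
  · intro a ha b hb
    rw [of_apply, if_neg (by rwa [← h2]), one_apply_ne (fun e : a = b => ha (e ▸ hb))]

theorem nu_md_mul (hn : Nice G 𝔤) (hc : Cell G) (hy : Reg G y) {h h' : GL (Fin n) k}
    (hh : h ∈ Hs G y) (hh' : h' ∈ Hs G y) (i : Fin n) :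
    nu G (mdG y (h * h')) i = nu G (mdG y h) i + nu G (mdG y h') i := by
  have h1 : ∀ h ∈ Hs G y, (bk G i (mdG y h : GL (Fin n) k)).det =
      mn y (y i - 1) (h : Mt n k) / mn y (y i) (h : Mt n k) := fun h hh => by
    rw [eq_div_iff (mn_ne_of_fy (Hs_ne hh) _), ← mn_mdG (y i - 1), mn_bk hy (mdG_mem (Hs_ne hh)),
      mn_mdG, mul_comm]
  have h2 : ∀ h ∈ Hs G y, ‖mn y (y i - 1) (h : Mt n k) / mn y (y i) (h : Mt n k)‖ ≠ 0 := fun h hh =>
    norm_ne_zero_iff.2 (div_ne_zero (mn_ne_of_fy (Hs_ne hh) _) (mn_ne_of_fy (Hs_ne hh) _))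
  rw [nu, nu, nu, h1 _ ((Hs G y).mul_mem hh hh'), h1 h hh, h1 h' hh', Hs_mn hn hc hy.1 hh' _ hh.1,
    Hs_mn hn hc hy.1 hh' _ hh.1, ← div_mul_div_comm, norm_mul, Real.log_mul (h2 h hh) (h2 h' hh'), add_div]

theorem md_Zc (hc : Cell G) (hy : Reg G y) {g : GL (Fin n) k} (hg : g ∈ G) (h0 : fy y (g : Mt n k) ≠ 0) :
    mdG y g ∈ Zc G := hy.zc ▸ ⟨hc.md hy.1 hg h0, mdG_mem h0⟩

theorem mdG_of_L {z : GL (Fin n) k} (hz : z ∈ Lgl y) : mdG y z = z := by
  simpa using (lmu_eq (Subgroup.one_mem _) hz (Subgroup.one_mem _)).2.1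

variable (K : Type) [NormedField K] [NormedAlgebra k K]

/-- extension of scalars -/
def mp : Mt n k →+* Mt n K := (algebraMap k K).mapMatrix

/-- the span of `Hs` -/
def Al (G : Subgroup (GL (Fin n) k)) (y : Fin n → ℤ) : Subalgebra K (Mt n K) :=
  Algebra.adjoin K ((fun h : GL (Fin n) k => mp K (h : Mt n k)) '' Hs G y)

variable {K}

theorem mem_Al {h : GL (Fin n) k} (hh : h ∈ Hs G y) : mp K (h : Mt n k) ∈ Al K G y :=
  Algebra.subset_adjoin ⟨h, hh, rfl⟩

theorem mp_smul (c : k) (x : Mt n k) : mp K (c • x) = algebraMap k K c • mp K x := by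
  ext i j; simp [mp]

theorem mp_det (x : Mt n k) : (mp K x).det = algebraMap k K x.det := ((algebraMap k K).map_det x).symm

theorem Al_span {x : Mt n K} (hx : x ∈ Al K G y) :
    x ∈ Submodule.span K ((fun h : GL (Fin n) k => mp K (h : Mt n k)) '' Hs G y) := by
  have h1 := (Algebra.adjoin_eq_span K _).le hx
  refine Submodule.span_mono (fun x hx => ?_) h1
  induction hx using Submonoid.closure_induction with
  | mem _ h => exact h
  | one => exact ⟨1, Subgroup.one_mem _, map_one _⟩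
  | mul _ _ _ _ h h' =>
    obtain ⟨a, ha, rfl⟩ := h; obtain ⟨b, hb, rfl⟩ := h'
    exact ⟨a * b, Subgroup.mul_mem _ ha hb, map_mul _ _ _⟩

theorem Ep_mem {a : Fin n → ℤ} {d d' : GL (Fin n) k} (h : ∀ t, d * tor a t * d' ∈ Hs G y) (c : ℤ) :
    mp K ((d : Mt n k) * Ep k a c * (d' : Mt n k)) ∈ Al K G y := by
  by_cases hc : c ∈ Finset.univ.image a
  · refine laurent (k := k) (Al K G y).toSubmodule _
      (fun c => mp K ((d : Mt n k) * Ep k a c * (d' : Mt n k))) (fun t => ?_) c hc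
    have := mem_Al (K := K) (h t)
    rw [Units.val_mul, Units.val_mul, tor_val, ← sum_Ep, Finset.mul_sum, Finset.sum_mul, map_sum] at this
    simp only [mul_smul_comm, smul_mul_assoc, mp_smul, map_zpow₀] at this
    exact this
  · have : Ep k a c = 0 := by
      rw [← diagonal_zero, Ep]; congr 1; funext i
      exact if_neg fun e => hc (Finset.mem_image.2 ⟨i, Finset.mem_univ _, e⟩)
    rw [this, mul_zero, zero_mul, map_zero]
    exact zero_mem _

theorem Ep_mem' (hy : y ∈ Y G) (c : ℤ) : mp K (Ep k y c) ∈ Al K G y := by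
  simpa using Ep_mem (K := K) (d := 1) (d' := 1) (a := y)
    (fun t => by simpa using P_le_Hs (hy t) (Lgl_le_Pgl y (tor_mem_Lgl y y t))) c

theorem pj_eq (a : ℤ) : P092AL.pj k y a =
    ∑ c ∈ Finset.univ.image y, (if a < c then (1 : k) else 0) • Ep k y c :=
  (sum_Ep (y := y) fun c => if a < c then (1 : k) else 0).symm

theorem pj_mem (hy : y ∈ Y G) (a : ℤ) : mp K (P092AL.pj k y a) ∈ Al K G y := by
  rw [pj_eq, map_sum]
  exact sum_mem fun c _ => by rw [mp_smul]; exact Subalgebra.smul_mem _ (Ep_mem' hy c) _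

theorem eig_block [IsAlgClosed K] (hm : Max K G) (hy : Reg G y) {z : GL (Fin n) k} (hz : z ∈ Zc G) (i : Fin n) {c : K}
    (hc : c ≠ 0) (h : (mp K (Ep k y (y i) * (z : Mt n k) * Ep k y (y i)) - c • 1).det = 0) :
    Real.log ‖c‖ = nu G z i := by
  obtain ⟨v, h0, hv⟩ := exists_mulVec_eq_zero_iff.2 h
  rw [sub_mulVec, smul_mulVec, one_mulVec, sub_eq_zero] at hv
  have hL : z ∈ Lgl y := (mem_Zc.1 hz).2 y hy.1
  have h1 : ∀ j, y j ≠ y i → v j = 0 := fun j hj => by
    have := congrFun hv j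
    simp only [mulVec, dotProduct, mp, RingHom.mapMatrix_apply, map_apply, mul_assoc, Ep_mul, if_neg hj,
      map_zero, zero_mul, Finset.sum_const_zero, Pi.smul_apply, smul_eq_mul] at this
    exact (mul_eq_zero.1 this.symm).resolve_left hc
  refine nu_eig hm hz ⟨v, h0, fun j hj => h1 j fun e => hj (hy.2 _ _ e.symm), ?_⟩
  rw [← hv]
  funext a
  simp only [mulVec, dotProduct, mp, RingHom.mapMatrix_apply, map_apply, mul_Ep, Ep_mul]
  refine Finset.sum_congr rfl fun b _ => ?_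
  by_cases hb : y b = y i
  · by_cases ha : y a = y i
    · rw [if_pos hb, if_pos ha]
    · rw [if_pos hb, if_neg ha, hL a b (by rwa [hb])]
  · rw [h1 b hb, mul_zero, mul_zero]

theorem bound_span {X V : Type} [AddCommGroup V] [Module K V] {S : Set V} {H : Set X} (F : X → V →ₗ[K] K)
    (w : X → ℝ) (h : ∀ v ∈ S, ∃ C, ∀ x ∈ H, ‖F x v‖ ≤ C * w x) {v : V} (hv : v ∈ Submodule.span K S) :
    ∃ C, ∀ x ∈ H, ‖F x v‖ ≤ C * w x := by
  induction hv using Submodule.span_induction with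
  | mem _ hv => exact h _ hv
  | zero => exact ⟨0, fun h _ => by simp⟩
  | add _ _ _ _ h1 h2 =>
    obtain ⟨C, h1⟩ := h1; obtain ⟨C', h2⟩ := h2
    exact ⟨C + C', fun h hh => by
      rw [map_add, add_mul]
      exact (norm_add_le _ _).trans (add_le_add (h1 h hh) (h2 h hh))⟩
  | smul c _ _ h1 =>
    obtain ⟨C, h1⟩ := h1
    exact ⟨‖c‖ * C, fun h hh => by
      rw [map_smul, norm_smul, mul_assoc]
      exact mul_le_mul_of_nonneg_left (h1 h hh) (norm_nonneg _)⟩

theorem tr_bound {m : ℕ} {σ : Mt n K →ₗ[K] Mt m K} (hσ : SR (Al K G y) σ) (ℓ : GL (Fin n) k → ℝ)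
    (hℓ : ∀ a ∈ Hs G y, ∀ b ∈ Hs G y, ℓ (a * b) = ℓ a + ℓ b) {E : Mt m K}
    (h6 : ∀ h ∈ Hs G y, ‖(σ (mp K (h : Mt n k)) * E).trace‖ ≤ m * Real.exp (ℓ h)) {A B : Mt n K}
    (hA : A ∈ Al K G y) (hB : B ∈ Al K G y) : ∃ C, ∀ h ∈ Hs G y,
      ‖(σ (mp K (h : Mt n k)) * (σ A * E * σ B)).trace‖ ≤ C * Real.exp (ℓ h) := by
  refine bound_span (H := (Hs G y : Set (GL (Fin n) k))) (fun h => traceLinearMap _ K K ∘ₗ
    LinearMap.mulLeft K (σ (mp K (h : Mt n k))) ∘ₗ LinearMap.mulRight K (σ B) ∘ₗ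
      LinearMap.mulRight K E ∘ₗ σ) _ ?_ (Al_span hA)
  rintro _ ⟨a, ha, rfl⟩
  refine bound_span (H := (Hs G y : Set (GL (Fin n) k))) (fun h => traceLinearMap _ K K ∘ₗ
    LinearMap.mulLeft K (σ (mp K (h : Mt n k))) ∘ₗ LinearMap.mulLeft K (σ (mp K (a : Mt n k)) * E) ∘ₗ σ)
    _ ?_ (Al_span hB)
  rintro _ ⟨b, hb, rfl⟩
  refine ⟨m * Real.exp (ℓ b + ℓ a), fun h hh => ?_⟩
  have := h6 _ (mul_mem (mul_mem hb hh) ha)
  rw [hℓ _ (mul_mem hb hh) _ ha, hℓ _ hb _ hh, Units.val_mul, Units.val_mul,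
    map_mul (mp K), map_mul (mp K), hσ.mul _ (mul_mem (mem_Al hb) (mem_Al hh)) _ (mem_Al ha),
    hσ.mul _ (mem_Al hb) _ (mem_Al hh)] at this
  change ‖(σ (mp K (h : Mt n k)) * (σ (mp K (a : Mt n k)) * E * σ (mp K (b : Mt n k)))).trace‖ ≤ _
  rw [← mul_assoc, trace_mul_comm, mul_assoc (m : ℝ), ← Real.exp_add, add_right_comm]
  simpa only [mul_assoc] using this

/-- **One weight.** -/
theorem one_wt [IsAlgClosed K] (hn : Nice G 𝔤) (hc : Cell G) (hm : Max K G) (hy : Reg G y) {m : ℕ}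
    {σ : Mt n K →ₗ[K] Mt m K} (hσ : SR (Al K G y) σ) : ∃ i, σ (mp K (Ep k y (y i))) = 1 ∧
      ∀ h ∈ Hs G y, ∀ c : K, c ≠ 0 → (σ (mp K (h : Mt n k)) - c • 1).det = 0 →
        Real.log ‖c‖ = nu G (mdG y h) i := by
  classical
  have : Nonempty (Fin m) := ⟨⟨0, hσ.pos⟩⟩
  have hE := Ep_mem' (K := K) hy.1
  have h1 : ∑ c ∈ Finset.univ.image y, σ (mp K (Ep k y c)) = 1 := by
    have := sum_Ep (R := k) (y := y) fun _ => 1
    simp only [one_smul, diagonal_one] at this
    rw [← map_sum, ← map_sum, this, map_one, hσ.one]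
  obtain ⟨i, hi, hmax⟩ := Finset.exists_max_image
    (Finset.univ.filter fun i => σ (mp K (Ep k y (y i))) ≠ 0) y (by
      by_contra h
      rw [Finset.sum_eq_zero fun c hc => ?_] at h1
      · exact zero_ne_one h1
      · obtain ⟨i, -, rfl⟩ := Finset.mem_image.1 hc
        exact not_not.1 fun e => h ⟨i, Finset.mem_filter.2 ⟨Finset.mem_univ _, e⟩⟩)
  replace hi := (Finset.mem_filter.1 hi).2
  have h2 : σ (mp K (1 - P092AL.pj k y (y i))) = 1 := by
    rw [map_sub, map_sub, map_one, hσ.one, pj_eq, map_sum, map_sum, Finset.sum_eq_zero, sub_zero]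
    intro c hc
    obtain ⟨j, -, rfl⟩ := Finset.mem_image.1 hc
    split_ifs with h
    · rw [one_smul]
      exact not_not.1 fun e => absurd (hmax j (Finset.mem_filter.2 ⟨Finset.mem_univ _, e⟩)) (by omega)
    · simp
  have hP : mp K (1 - P092AL.pj k y (y i)) ∈ Al K G y := by
    rw [map_sub, map_one]; exact sub_mem (one_mem _) (pj_mem hy.1 _)
  have h3 : ∀ h ∈ Hs G y, σ (mp K (Ep k y (y i))) * σ (mp K (h : Mt n k)) * σ (mp K (Ep k y (y i))) =
      σ (mp K (Ep k y (y i) * ((mdG y h : GL (Fin n) k) : Mt n k) * Ep k y (y i))) := fun h hh => by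
    have h0 := Hs_ne hh
    have a1 := mem_Al (K := K) (hc.loN hy.1 hh).1
    have a2 := mem_Al (K := K) (P_le_Hs (hc.md hy.1 hh.1 h0) (Lgl_le_Pgl y (mdG_mem h0)))
    have a3 := mem_Al (K := K) (P_le_Hs (hc y hy.1 h hh.1 h0).2 (Ugl_le_Pgl y (upG_mem y h)))
    rw [← key_block (loG_mem y h) (mdG_mem h0) (upG_mem y h)]
    conv_lhs => rw [← lmu y h]
    simp only [Units.val_mul, map_mul]
    have b1 := mul_mem (hE (y i)) a1
    have b2 := mul_mem b1 hP
    have b3 := mul_mem b2 a2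
    have b4 := mul_mem b3 hP
    rw [hσ.mul _ (mul_mem b4 a3) _ (hE _), hσ.mul _ b4 _ a3, hσ.mul _ b3 _ hP, hσ.mul _ b2 _ a2,
      hσ.mul _ b1 _ hP, hσ.mul _ (hE _) _ a1, hσ.mul _ (mul_mem a1 a2) _ a3, hσ.mul _ a1 _ a2, h2]
    simp only [mul_one, mul_assoc]
  have h4 : ∀ h ∈ Hs G y, ∀ c : K, c ≠ 0 → (σ (mp K (Ep k y (y i))) * σ (mp K (h : Mt n k)) *
      σ (mp K (Ep k y (y i))) - c • 1).det = 0 → Real.log ‖c‖ = nu G (mdG y h) i := fun h hh c h0 e => by
    have h5 := md_Zc hc hy hh.1 (Hs_ne hh)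
    refine eig_block hm hy h5 i h0 (not_not.1 fun h6 => hσ.det_ne ?_ h6 ?_)
    · rw [map_mul, map_mul]
      exact sub_mem (mul_mem (mul_mem (hE _) (mem_Al (P_le_Hs (mem_Zc.1 h5).1
        (Lgl_le_Pgl y (mdG_mem (Hs_ne hh)))))) (hE _)) (Subalgebra.smul_mem _ (one_mem _) _)
    · rwa [map_sub, map_smul, hσ.one, ← h3 h hh]
  have h5 : σ (mp K (Ep k y (y i))) * σ (mp K (Ep k y (y i))) = σ (mp K (Ep k y (y i))) := by
    rw [← hσ.mul _ (hE _) _ (hE _), ← map_mul, Ep_Ep, if_pos rfl]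
  have h6 : ∀ h ∈ Hs G y, ‖(σ (mp K (h : Mt n k)) * σ (mp K (Ep k y (y i)))).trace‖ ≤
      m * Real.exp (nu G (mdG y h) i) := fun h hh => by
    rw [← h5, ← mul_assoc, trace_mul_cycle]
    refine (P092A2.norm_trace_le fun c hc => ?_).trans_eq (by rw [Fintype.card_fin])
    by_cases h0 : c = 0
    · rw [h0, norm_zero]; exact (Real.exp_pos _).le
    · rw [← h4 h hh c h0, Real.exp_log (norm_pos_iff.2 h0)]
      rw [Polynomial.IsRoot, eval_charpoly] at hc
      rw [← neg_sub, det_neg, smul_one_eq_diagonal]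
      simpa using hc
  have h7 := fun A B => tr_bound (A := A) (B := B) hσ (fun h => nu G (mdG y h) i) (fun a ha b hb => nu_md_mul hn hc hy ha hb i) h6
  have h8 : ∀ j, y j ≠ y i → σ (mp K (Ep k y (y j))) = 0 := fun j hj => by
    by_contra h9
    have h10 : y j < y i := lt_of_le_of_ne (hmax j (Finset.mem_filter.2 ⟨Finset.mem_univ _, h9⟩)) hj
    obtain ⟨p, q, hp⟩ : ∃ p q, σ (mp K (Ep k y (y i))) p q ≠ 0 := by
      by_contra h; push Not at h; exact hi (Matrix.ext h)
    obtain ⟨r, s, hr⟩ : ∃ p q, σ (mp K (Ep k y (y j))) p q ≠ 0 := by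
      by_contra h; push Not at h; exact h9 (Matrix.ext h)
    obtain ⟨A, hA, a1⟩ := hσ.surj (σ (mp K (Ep k y (y j))) * single s p 1)
    obtain ⟨B, hB, a2⟩ := hσ.surj (single q r 1)
    obtain ⟨C, hC⟩ := h7 A B hA hB
    obtain ⟨ϖ, -, hϖ⟩ := exists_unif k
    have a3 : ∀ t : kˣ, ‖σ (mp K (Ep k y (y j))) r s * σ (mp K (Ep k y (y i))) p q‖ ≤
        C * ‖(t : k)‖ ^ (y i - y j).toNat := fun t => by
      have a4 := P_le_Hs (hy.1 t) (Lgl_le_Pgl y (tor_mem_Lgl y y t))
      have a5 := hC _ a4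
      have a6 : 0 < ‖(t : k)‖ := norm_pos_iff.2 t.ne_zero
      rw [a1, a2, mdG_of_L (tor_mem_Lgl y y t), nu_tor hy.1, mul_assoc, mul_assoc, ← mul_assoc,
        ← hσ.mul _ (mem_Al a4) _ (hE _), ← map_mul, tor_Ep, mp_smul, map_smul, smul_mul_assoc,
        trace_smul, norm_smul, norm_algebraMap', norm_zpow, ← mul_assoc (single s p 1), single_mul_mul_single,
        trace_mul_single, ← Real.log_zpow, Real.exp_log (zpow_pos a6 _)] at a5
      rw [← zpow_natCast, Int.toNat_of_nonneg (by omega), zpow_sub₀ a6.ne', ← mul_div_assoc,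
        le_div_iff₀' (zpow_pos a6 _)]
      simpa [mul_comm] using a5
    have a7 : Tendsto (fun l : ℕ => C * ‖((ϖ ^ l : kˣ) : k)‖ ^ (y i - y j).toNat) atTop
        (𝓝 (C * ‖(0 : k)‖ ^ (y i - y j).toNat)) := (hϖ.norm.pow _).const_mul C
    rw [norm_zero, zero_pow (by omega), mul_zero] at a7
    exact mul_ne_zero hr hp (norm_le_zero_iff.1 (ge_of_tendsto' a7 fun l => a3 _))
  have h9 : σ (mp K (Ep k y (y i))) = 1 := by
    rw [← h1, Finset.sum_eq_single (y i)]
    · intro c hc h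
      obtain ⟨j, -, rfl⟩ := Finset.mem_image.1 hc
      exact h8 j h
    · simp
  exact ⟨i, h9, fun h hh c h0 e => h4 h hh c h0 (by rwa [h9, one_mul, mul_one])⟩

end Vale.Agent.P092AG
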