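import Vale.Agent.P092AG.C2

/-!
P092, group side (helper91): the conjugacy of the maximal split tori of `Hs`.
-/

set_option linter.all false

open Matrix Filter Topology
open scoped Matrix.Norms.Elementwise Classical

namespace Vale.Agent.P092AG

open Vale.Agent.P092TO

variable {n : ℕ} {k : Type} [NontriviallyNormedField k] {G : Subgroup (GL (Fin n) k)}
  {𝔤 : Submodule k (Mt n k)} {y : Fin n → ℤ} {K : Type} [NormedField K] [NormedAlgebra k K]

variable (K) in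
/-- the units of the span of `Hs` -/
def AlG (G : Subgroup (GL (Fin n) k)) (y : Fin n → ℤ) : Subgroup (GL (Fin n) k) where
  carrier := {g | mp K (g : Mt n k) ∈ Al K G y}
  mul_mem' := fun ha hb => by
    rw [Set.mem_setOf_eq, Units.val_mul, map_mul]; exact mul_mem ha hb
  one_mem' := by rw [Set.mem_setOf_eq, Units.val_one, map_one]; exact one_mem _
  inv_mem' := fun {a} ha => by
    have h1 : mp K (a : Mt n k) * mp K ((a⁻¹ : GL (Fin n) k) : Mt n k) = 1 := by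
      rw [← map_mul, Units.mul_inv, map_one]
    rw [Set.mem_setOf_eq, ← inv_eq_right_inv h1]
    exact inv_mem_sub _ ha (left_ne_zero_of_mul_eq_one (by rw [← det_mul, h1, det_one]))

theorem SR.mulG {m : ℕ} {σ : Mt n K →ₗ[K] Mt m K} (hσ : SR (Al K G y) σ) {a b : GL (Fin n) k}
    (ha : a ∈ AlG K G y) (hb : b ∈ AlG K G y) : σ (mp K ((a * b : GL (Fin n) k) : Mt n k)) =
      σ (mp K (a : Mt n k)) * σ (mp K (b : Mt n k)) := by
  rw [Units.val_mul, map_mul (mp K), hσ.mul _ ha _ hb]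

variable (K) in
/-- the units which are trivial in all simple modules -/
def Gd (G : Subgroup (GL (Fin n) k)) (y : Fin n → ℤ) : Subgroup (GL (Fin n) k) where
  carrier := {g | g ∈ AlG K G y ∧ ∀ (m : ℕ) (σ : Mt n K →ₗ[K] Mt m K), SR (Al K G y) σ →
    σ (mp K (g : Mt n k)) = 1}
  mul_mem' := fun ha hb => ⟨mul_mem ha.1 hb.1, fun m σ hσ => by
    rw [hσ.mulG ha.1 hb.1, ha.2 m σ hσ, hb.2 m σ hσ, mul_one]⟩
  one_mem' := ⟨one_mem _, fun m σ hσ => by rw [Units.val_one, map_one, hσ.one]⟩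
  inv_mem' := fun {a} ha => ⟨inv_mem ha.1, fun m σ hσ => by
    have := hσ.mulG ha.1 (inv_mem ha.1)
    rwa [mul_inv_cancel, Units.val_one, map_one, hσ.one, ha.2 m σ hσ, one_mul, eq_comm] at this⟩

theorem Gd_conj {a w : GL (Fin n) k} (ha : a ∈ AlG K G y) (hw : w ∈ Gd K G y) :
    a * w * a⁻¹ ∈ Gd K G y :=
  ⟨mul_mem (mul_mem ha hw.1) (inv_mem ha), fun m σ hσ => by
    rw [hσ.mulG (mul_mem ha hw.1) (inv_mem ha), hσ.mulG ha hw.1, hw.2 m σ hσ, mul_one,
      ← hσ.mulG ha (inv_mem ha), mul_inv_cancel, Units.val_one, map_one, hσ.one]⟩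

variable [IsAlgClosed K]

theorem det_ne_of {x : Mt n k} (hx : mp K x ∈ Al K G y)
    (h : ∀ (m : ℕ) (σ : Mt n K →ₗ[K] Mt m K), SR (Al K G y) σ → (σ (mp K x)).det ≠ 0) : x.det ≠ 0 :=
  fun e => unit_of _ hx h (by rw [mp_det, e, map_zero])

theorem Gd_fy (hy : y ∈ Y G) {w : GL (Fin n) k} (hw : w ∈ Gd K G y) : fy y (w : Mt n k) ≠ 0 := by
  have h1 : ∀ c, mn y c (w : Mt n k) ≠ 0 := fun c => by
    have h2 := pj_mem (K := K) hy c
    refine det_ne_of (K := K) (G := G) (y := y) ?_ fun m σ hσ => ?_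
    · simp only [P092AL.tr, map_add, map_mul, map_sub, map_one]
      exact add_mem (mul_mem (mul_mem h2 hw.1) h2) (sub_mem (one_mem _) h2)
    · rw [P092AL.tr, map_add, map_add, map_mul (mp K), map_mul (mp K), hσ.mul _ (mul_mem h2 hw.1) _ h2,
        hσ.mul _ h2 _ hw.1, hw.2 m σ hσ, mul_one, ← hσ.mul _ h2 _ h2, ← map_mul, P092AL.pj_sq,
        ← map_add, ← map_add, add_sub_cancel, map_one, hσ.one, det_one]
      exact one_ne_zero
  exact Finset.prod_ne_zero_iff.2 fun i _ => mul_ne_zero (h1 _) (h1 _)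

theorem Gd_tor {g : GL (Fin n) k} {b : Fin n → ℤ} (h : ∀ t, g⁻¹ * tor b t * g ∈ Gd K G y) : b = 0 :=
  funext fun j => zpow_inj_of (k := k) fun t => by
    rw [Pi.zero_apply, zpow_zero]
    by_contra h0
    refine det_ne_of (K := K) (G := G) (y := y)
      (x := ((g⁻¹ * tor b t * g : GL (Fin n) k) : Mt n k) - (t : k) ^ b j • 1) ?_ (fun m σ hσ => ?_) ?_
    · rw [map_sub, mp_smul, map_one]
      exact sub_mem (h t).1 (Subalgebra.smul_mem _ (one_mem _) _)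
    · rw [map_sub, mp_smul, map_one, map_sub, map_smul, (h t).2 m σ hσ, hσ.one, ← one_smul K (1 : Mt m K),
        smul_smul, ← sub_smul, det_smul, det_one, mul_one, mul_one]
      exact pow_ne_zero _ (sub_ne_zero.2 fun e => h0 ((algebraMap k K).injective
        (by rw [map_one]; exact e.symm)))
    · have : ((g⁻¹ * tor b t * g : GL (Fin n) k) : Mt n k) - (t : k) ^ b j • 1 =
          ((g⁻¹ : GL (Fin n) k) : Mt n k) * (((tor b t : GL (Fin n) k) : Mt n k) - (t : k) ^ b j • 1) *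
            (g : Mt n k) := by
        rw [mul_sub, sub_mul, mul_smul_comm, smul_mul_assoc, mul_one, Units.inv_mul, Units.val_mul,
          Units.val_mul]
      rw [this, det_mul, det_mul, tor_val, smul_one_eq_diagonal, diagonal_sub, det_diagonal,
        Finset.prod_eq_zero (Finset.mem_univ j) (sub_self _), mul_zero, zero_mul]

theorem YR_sim {ν : Fin n → ℝ} (h : ν ∈ YR G) {i j : Fin n} (hs : Sim G i j) : ν i = ν j := by
  induction h using Submodule.span_induction with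
  | mem _ h => obtain ⟨a, ha, rfl⟩ := h; simp only [hs a ha]
  | zero => rfl
  | add _ _ _ _ h h' => rw [Pi.add_apply, Pi.add_apply, h, h']
  | smul c _ _ h => rw [Pi.smul_apply, Pi.smul_apply, h]

theorem tor_mem_Hs (hy : Reg G y) {κ : Fin n → ℤ} (hκ : κ ∈ Y G) (t : kˣ) : tor κ t ∈ Hs G y :=
  P_le_Hs (hκ t) (Lgl_le_Pgl y (tor_mem_Lgl κ y t))

theorem kap0 (hn : Nice G 𝔤) (hc : Cell G) (hm : Max K G) (hy : Reg G y) {g : GL (Fin n) k}
    {a : Fin n → ℤ} (h : ∀ t, g⁻¹ * tor a t * g ∈ Hs G y) : ∃ κ ∈ Y G, (∀ i, ∃ j, κ i = a j) ∧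
      ∀ (m : ℕ) (σ : Mt n K →ₗ[K] Mt m K), SR (Al K G y) σ → ∃ i, σ (mp K (Ep k y (y i))) = 1 ∧
        σ (mp K (((g⁻¹ : GL (Fin n) k) : Mt n k) * Ep k a (κ i) * (g : Mt n k))) = 1 := by
  obtain ⟨ϖ, hϖ, -⟩ := exists_unif k
  have l0 : Real.log ‖(ϖ : k)‖ ≠ 0 := (Real.log_neg (norm_pos_iff.2 ϖ.ne_zero) hϖ).ne
  have hν := nu_mem hm (md_Zc hc hy (h ϖ).1 (Hs_ne (h ϖ)))
  set ν := nu G (mdG y (g⁻¹ * tor a ϖ * g))
  have hπ := Ep_mem (K := K) h
  have hE := Ep_mem' (K := K) hy.1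
  have h1 : ∀ (m : ℕ) (σ : Mt n K →ₗ[K] Mt m K), SR (Al K G y) σ → ∃ i, σ (mp K (Ep k y (y i))) = 1 ∧
      ∃ j, a j * Real.log ‖(ϖ : k)‖ = ν i ∧
        σ (mp K (((g⁻¹ : GL (Fin n) k) : Mt n k) * Ep k a (a j) * (g : Mt n k))) = 1 := fun m σ hσ => by
    have : Nonempty (Fin m) := ⟨⟨0, hσ.pos⟩⟩
    obtain ⟨i, h2, h3⟩ := one_wt hn hc hm hy hσ
    have h4 : ∀ c : ℤ, σ (mp K (((g⁻¹ : GL (Fin n) k) : Mt n k) * Ep k a c * (g : Mt n k))) ≠ 0 →
        c * Real.log ‖(ϖ : k)‖ = ν i := fun c h0 => by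
      rw [← Real.log_zpow, ← norm_zpow, ← norm_algebraMap' K]
      refine h3 _ (h ϖ) _ ((map_ne_zero _).2 (zpow_ne_zero _ ϖ.ne_zero)) (not_not.1 fun e => h0 ?_)
      refine ((isUnit_iff_isUnit_det _).2 (IsUnit.mk0 _ e)).mul_right_eq_zero.1 ?_
      rw [sub_mul, ← hσ.mul _ (mem_Al (h ϖ)) _ (hπ c), ← map_mul, Units.val_mul, Units.val_mul,
        smul_mul_assoc, one_mul, ← map_smul, ← mp_smul, sub_eq_zero]
      simp only [mul_assoc, Units.mul_inv_cancel_left]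
      rw [← mul_assoc _ (Ep k a c), tor_Ep]
      simp only [smul_mul_assoc, mul_smul_comm]
    have h5 : ∑ c ∈ Finset.univ.image a,
        σ (mp K (((g⁻¹ : GL (Fin n) k) : Mt n k) * Ep k a c * (g : Mt n k))) = 1 := by
      have := sum_Ep (R := k) (y := a) fun _ => 1
      simp only [one_smul, diagonal_one] at this
      rw [← map_sum, ← map_sum, ← Finset.sum_mul, ← Finset.mul_sum, this, mul_one, Units.inv_mul,
        map_one, hσ.one]
    obtain ⟨c, h6, h7⟩ := Finset.exists_ne_zero_of_sum_ne_zero (h5 ▸ one_ne_zero)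
    obtain ⟨j, -, rfl⟩ := Finset.mem_image.1 h6
    refine ⟨i, h2, j, h4 _ h7, ?_⟩
    rw [← h5, Finset.sum_eq_single (a j) (fun c _ h8 => not_not.1 fun e => h8 ?_) (fun e => absurd h6 e)]
    exact_mod_cast mul_right_cancel₀ l0 ((h4 c e).trans (h4 _ h7).symm)
  have h2 : ∀ i, ∃ j, a j * Real.log ‖(ϖ : k)‖ = ν i := fun i => by
    by_contra h3
    refine det_ne_of (K := K) (G := G) (y := y) (x := 1 - Ep k y (y i)) ?_ (fun m σ hσ => ?_) ?_
    · rw [map_sub, map_one]; exact sub_mem (one_mem _) (hE _)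
    · obtain ⟨i', h4, j, h5, -⟩ := h1 m σ hσ
      have h6 : y i' ≠ y i := fun e => h3 ⟨j, h5.trans (YR_sim hν (hy.2 _ _ e))⟩
      have h7 := hσ.mul _ (hE (y i')) _ (hE (y i))
      rw [← map_mul, Ep_Ep, if_neg h6, map_zero, map_zero, h4, one_mul] at h7
      rw [map_sub, map_sub, map_one, hσ.one, ← h7, sub_zero, det_one]
      exact one_ne_zero
    · refine det_eq_zero_of_row_eq_zero i fun j => ?_
      rw [Matrix.sub_apply, ← mul_one (Ep k y (y i)), Ep_mul, if_pos rfl, sub_self]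
  choose j hj using h2
  refine ⟨fun i => a (j i), mem_Y_of_YR hn.closed ?_, fun i => ⟨_, rfl⟩, fun m σ hσ => ?_⟩
  · convert (YR G).smul_mem (Real.log ‖(ϖ : k)‖)⁻¹ hν using 1
    funext i
    rw [Pi.smul_apply, ← hj i, smul_eq_mul, mul_comm, mul_inv_cancel_right₀ l0]
  · obtain ⟨i, h3, j', h4, h5⟩ := h1 m σ hσ
    have : a (j i) = a j' := by exact_mod_cast mul_right_cancel₀ l0 ((hj i).trans h4.symm)
    exact ⟨i, h3, by simpa only [this] using h5⟩

theorem kap (hn : Nice G 𝔤) (hc : Cell G) (hm : Max K G) (hy : Reg G y) {g : GL (Fin n) k}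
    {a : Fin n → ℤ} (h : ∀ t, g⁻¹ * tor a t * g ∈ Hs G y) : ∃ κ ∈ Y G, (∀ i, ∃ j, κ i = a j) ∧
      ∃ w ∈ Gd K G y, (∀ t, g⁻¹ * tor a t * g = w * tor κ t * w⁻¹) ∧
        ((∀ t, g⁻¹ * tor a t * g ∈ Lgl y) → w ∈ Lgl y) := by
  obtain ⟨κ, hκ, h1, h2⟩ := kap0 hn hc hm hy h
  have hπ := Ep_mem (K := K) h
  have hE := Ep_mem' (K := K) hy.1
  have hF : ∀ c, mp K (Ep k κ c) ∈ Al K G y := fun c => by
    simpa using Ep_mem (K := K) (d := 1) (d' := 1) (a := κ) (fun t => by simpa using tor_mem_Hs hy hκ t) c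
  let W : Mt n k := ∑ c ∈ Finset.univ.image κ,
    ((g⁻¹ : GL (Fin n) k) : Mt n k) * Ep k a c * (g : Mt n k) * Ep k κ c
  have h3 : mp K W ∈ Al K G y := by
    rw [map_sum]; exact sum_mem fun c _ => by rw [map_mul]; exact mul_mem (hπ c) (hF c)
  have h4 : ∀ (m : ℕ) (σ : Mt n K →ₗ[K] Mt m K), SR (Al K G y) σ → σ (mp K W) = 1 := fun m σ hσ => by
    obtain ⟨i, a1, a2⟩ := h2 m σ hσ
    have a3 : ∀ c, σ (mp K (Ep k κ c)) = if κ i = c then 1 else 0 := fun c => by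
      have a4 : Ep k y (y i) * Ep k κ c = if κ i = c then Ep k y (y i) else 0 := by
        ext p q
        rw [mul_Ep]
        by_cases e : y q = y i
        · rw [hy.2 _ _ e κ hκ]; split_ifs <;> rfl
        · have : Ep k y (y i) p q = 0 := by rw [← one_mul (Ep k y (y i)), mul_Ep, if_neg e]
          split_ifs <;> simp [this]
      have := hσ.mul _ (hE (y i)) _ (hF c)
      rw [← map_mul, a4, a1, one_mul] at this
      rw [← this]
      split_ifs <;> simp [a1]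
    rw [map_sum, map_sum, Finset.sum_eq_single (κ i) (fun c _ e => ?_) (by simp)]
    · rw [map_mul (mp K), hσ.mul _ (hπ _) _ (hF _), a2, a3, if_pos rfl, mul_one]
    · rw [map_mul (mp K), hσ.mul _ (hπ _) _ (hF _), a3, if_neg e.symm, mul_zero]
  have h5 : W.det ≠ 0 := det_ne_of h3 fun m σ hσ => by rw [h4 m σ hσ, det_one]; exact one_ne_zero
  refine ⟨κ, hκ, h1, GeneralLinearGroup.mkOfDetNeZero W h5, ⟨h3, h4⟩, fun t => ?_, fun h6 => ?_⟩
  · rw [eq_mul_inv_iff_mul_eq]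
    refine Units.ext ?_
    change ((g⁻¹ * tor a t * g : GL (Fin n) k) : Mt n k) * W = W * ((tor κ t : GL (Fin n) k) : Mt n k)
    rw [Finset.mul_sum, Finset.sum_mul]
    refine Finset.sum_congr rfl fun c _ => ?_
    have a1 : Ep k κ c * ((tor κ t : GL (Fin n) k) : Mt n k) = (t : k) ^ c • Ep k κ c := by
      rw [← tor_Ep, tor_val, Ep, diagonal_mul_diagonal, diagonal_mul_diagonal]
      simp only [mul_comm]
    rw [mul_assoc _ (Ep k κ c), a1, Units.val_mul, Units.val_mul]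
    simp only [mul_assoc, Units.mul_inv_cancel_left]
    rw [← mul_assoc _ (Ep k a c), tor_Ep]
    simp only [smul_mul_assoc, mul_smul_comm]
  · let S : Submodule k (Mt n k) :=
      { carrier := {x | IsL y x}
        add_mem' := fun ha hb i j e => by rw [Matrix.add_apply, ha i j e, hb i j e, add_zero]
        zero_mem' := fun _ _ _ => rfl
        smul_mem' := fun c x ha i j e => by rw [Matrix.smul_apply, ha i j e, smul_zero] }
    have a1 := laurent (k := k) S (Finset.univ.image a)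
      (fun c => ((g⁻¹ : GL (Fin n) k) : Mt n k) * Ep k a c * (g : Mt n k)) fun t => by
        have : ((g⁻¹ * tor a t * g : GL (Fin n) k) : Mt n k) ∈ S := h6 t
        rw [Units.val_mul, Units.val_mul, tor_val, ← sum_Ep, Finset.mul_sum, Finset.sum_mul] at this
        simpa only [mul_smul_comm, smul_mul_assoc, Algebra.algebraMap_self, RingHom.id_apply] using this
    change W ∈ S
    refine S.sum_mem fun c hc' => fun p q e => ?_
    obtain ⟨i, -, rfl⟩ := Finset.mem_image.1 hc'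
    obtain ⟨j, hj⟩ := h1 i
    rw [mul_Ep, a1 _ (Finset.mem_image.2 ⟨j, Finset.mem_univ _, hj.symm⟩) p q e, ite_self]

omit [IsAlgClosed K] in
theorem tendsto_conj' {ι : Type} {l : Filter ι} {u : ι → GL (Fin n) k} {u₀ : GL (Fin n) k}
    (hu : ∀ j, u j ∈ Ugl y) (h0 : u₀ ∈ Ugl y) (hl : Tendsto u l (𝓝 u₀)) {t : ι → kˣ}
    (ht : Tendsto (fun j => (t j : k)) l (𝓝 0)) :
    Tendsto (fun j => tor y (t j) * u j * (tor y (t j))⁻¹) l (𝓝 1) := by
  rw [emb_val.isInducing.tendsto_nhds_iff]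
  have h1 : Continuous fun p : k × GL (Fin n) k => sc y p.1 (p.2 : Mt n k) :=
    continuous_pi fun i => continuous_pi fun j =>
      (continuous_fst.pow _).mul ((cont_entry i j).comp continuous_snd)
  have := (h1.tendsto (0, u₀)).comp (ht.prodMk_nhds hl)
  rw [sc_zero h0] at this
  exact this.congr fun j => (sc_eq (Ugl_le_Pgl y (hu j)) (t j)).symm

omit [IsAlgClosed K] in
theorem conj_lim (hn : Nice G 𝔤) (hc : Cell G) (hy : y ∈ Y G) {w : GL (Fin n) k}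
    (h1 : fy y (w : Mt n k) ≠ 0) (h2 : fy y ((w⁻¹ : GL (Fin n) k) : Mt n k) ≠ 0)
    (h : ∀ t, w * tor y t * w⁻¹ ∈ Hs G y) :
    ∃ x ∈ Hs G y, ∀ t, w * tor y t * w⁻¹ = x * tor y t * x⁻¹ := by
  obtain ⟨ϖ, -, hϖ⟩ := exists_unif k
  have hl := mdG_mem h1
  have a1 : Tendsto (fun j : ℕ => tor y (ϖ ^ j) * upG y w * (tor y (ϖ ^ j))⁻¹ * loG y w⁻¹) atTop
      (𝓝 (loG y w⁻¹)) := by simpa using (tendsto_conj (upG_mem y w) hϖ).mul_const (loG y w⁻¹)
  have a2 : fy y ((loG y w⁻¹ : GL (Fin n) k) : Mt n k) ≠ 0 := by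
    rw [fy_U (loG_mem y _)]; exact one_ne_zero
  have a3 := (contAt_loG a2).tendsto.comp a1
  rw [show loG y (loG y w⁻¹) = loG y w⁻¹ by simpa using loG_eq (loG_mem y w⁻¹) (one_mem _)] at a3
  have a4 := (((tendsto_conj' (fun j => loG_mem y _) (loG_mem y _) a3 hϖ).const_mul
    (mdG y w)).mul_const (mdG y w)⁻¹).const_mul (loG y w)
  rw [mul_one, mul_inv_cancel, mul_one] at a4
  have a5 : loG y w ∈ Hs G y := (isClosed_Hs hn.closed.isClosed y).mem_of_tendsto a4 (by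
    filter_upwards [((pf_fy y).contGL.continuousAt.tendsto.comp a1).eventually_ne a2] with j hj
    have b1 := (hc.loN hy (h (ϖ ^ j)⁻¹)).1
    set x := tor y (ϖ ^ j) * upG y w * (tor y (ϖ ^ j))⁻¹ * loG y w⁻¹ with hx
    have b2 : w * tor y (ϖ ^ j)⁻¹ * w⁻¹ = (loG y w * (mdG y w * (tor (-y) (ϖ ^ j) * loG y x *
        (tor (-y) (ϖ ^ j))⁻¹) * (mdG y w)⁻¹)) * (mdG y w * tor (-y) (ϖ ^ j) * (mdG y x * upG y x) *
          (mdG y w⁻¹ * upG y w⁻¹)) := by
      have c1 : mdG y x * upG y x = (loG y x)⁻¹ * x := by rw [mdG]; group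
      have c2 : mdG y w⁻¹ * upG y w⁻¹ = (loG y w⁻¹)⁻¹ * w⁻¹ := by rw [mdG]; group
      have c3 : mdG y w = (loG y w)⁻¹ * w * (upG y w)⁻¹ := rfl
      rw [c1, c2, tor_inv, tor_neg]
      generalize loG y x = v
      rw [hx, c3]
      group
    rw [b2, loG_eq (mul_mem (loG_mem y w) (conj_mem_Ugl (Lgl_le_Pgl_neg y hl) (conj_mem_Ugl
      (Lgl_le_Pgl _ (tor_mem_Lgl _ _ _)) (loG_mem y x)))) (mul_mem (mul_mem (Lgl_le_Pgl y
      (mul_mem hl (tor_mem_Lgl _ _ _))) (md_up_mem hj)) (md_up_mem h2))] at b1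
    exact b1)
  have a6 : mdG y w * upG y w * (mdG y w)⁻¹ ∈ Ugl y := conj_mem_Ugl (Lgl_le_Pgl y hl) (upG_mem y w)
  have a7 : ∀ t, w * tor y t * w⁻¹ = loG y w * (mdG y w * upG y w * (mdG y w)⁻¹) * tor y t *
      (loG y w * (mdG y w * upG y w * (mdG y w)⁻¹))⁻¹ := fun t => by
    have c1 := comm_tor hl t
    have c2 : loG y w * (mdG y w * upG y w * (mdG y w)⁻¹) = w * (mdG y w)⁻¹ := by
      rw [← mul_assoc, ← mul_assoc, lmu]
    rw [c2]
    calc _ = w * (mdG y w)⁻¹ * (mdG y w * tor y t) * w⁻¹ := by group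
      _ = _ := by rw [← c1]; group
  set u := mdG y w * upG y w * (mdG y w)⁻¹
  have a8 : u ∈ G := by
    have b1 := (tendsto_conj (inv_mem a6) hϖ).const_mul u
    rw [mul_one] at b1
    refine hn.closed.isClosed.mem_of_tendsto b1 (Eventually.of_forall fun j => ?_)
    have b2 : u * (tor y (ϖ ^ j) * u⁻¹ * (tor y (ϖ ^ j))⁻¹) =
        (loG y w)⁻¹ * (w * tor y (ϖ ^ j) * w⁻¹) * loG y w * (tor y (ϖ ^ j))⁻¹ := by rw [a7]; group
    rw [b2]
    exact mul_mem (mul_mem (mul_mem (inv_mem a5.1) (h _).1) a5.1) (inv_mem (hy _))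
  exact ⟨_, mul_mem a5 (P_le_Hs a8 (Ugl_le_Pgl y a6)), a7⟩

/-- **Conjugacy.** -/
theorem conj_Nm (hn : Nice G 𝔤) (hc : Cell G) (hm : Max K G) (hy : Reg G y) {g : GL (Fin n) k}
    (hg : g ∈ G) (h : ∀ a ∈ Y G, ∀ t, g⁻¹ * tor a t * g ∈ Hs G y) : ∃ x ∈ Hs G y, g * x ∈ Nm G := by
  choose κ h1 h2 w h3 h4 h5 using fun a : Y G => kap hn hc hm hy (h a.1 a.2)
  obtain ⟨a, ha⟩ := surj_of_vals (A := Y G) (c := fun a => ⟨κ a, h1 a⟩) (fun a a' e => by
    have e' : κ a = κ a' := congrArg Subtype.val e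
    refine Subtype.ext (sub_eq_zero.1 (Gd_tor (K := K) (G := G) (y := y) (g := g) fun t => ?_))
    have : g⁻¹ * tor (a.1 - a'.1) t * g = w a * (tor (κ a) t * ((w a)⁻¹ * w a') * (tor (κ a) t)⁻¹) *
        (w a')⁻¹ := by
      calc _ = g⁻¹ * tor a.1 t * g * (g⁻¹ * tor a'.1 t * g)⁻¹ := by
            rw [sub_eq_add_neg, tor_add, tor_neg]; group
        _ = _ := by rw [h4, h4, ← e']; group
    rw [this]
    exact mul_mem (mul_mem (h3 a) (Gd_conj (mem_Al (tor_mem_Hs hy (h1 a) t))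
      (mul_mem (inv_mem (h3 a)) (h3 a')))) (inv_mem (h3 a'))) h2 ⟨y, hy.1⟩
  have e : κ a = y := congrArg Subtype.val ha
  have h6 := h4 a
  rw [e] at h6
  obtain ⟨x, hx, h7⟩ := conj_lim hn hc hy.1 (Gd_fy hy.1 (h3 a)) (Gd_fy hy.1 (inv_mem (h3 a)))
    fun t => h6 t ▸ h a.1 a.2 t
  refine ⟨x, hx, mem_Nm_of (mul_mem hg hx.1) fun b hb => ?_⟩
  have h8 : ∀ t, (g * x)⁻¹ * tor b t * (g * x) ∈ Lgl y := fun t => mem_Lgl_of_comm fun s => by
    have c1 : tor y s = (g * x)⁻¹ * tor a.1 s * (g * x) := by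
      calc _ = x⁻¹ * (x * tor y s * x⁻¹) * x := by group
        _ = _ := by rw [← h7, ← h6]; group
    rw [c1]
    calc _ = (g * x)⁻¹ * (tor a.1 s * tor b t) * (g * x) := by group
      _ = _ := by rw [tor_comm]; group
  obtain ⟨c, c1, -, v, -, c2, c3⟩ := kap hn hc hm hy (g := g * x) (a := b) fun t => P_le_Hs
    (mul_mem (mul_mem (inv_mem (mul_mem hg hx.1)) (hb t)) (mul_mem hg hx.1)) (Lgl_le_Pgl y (h8 t))
  refine ⟨c, c1, fun t => ?_⟩
  have c4 : v ∈ Lgl c := fun i j e => c3 h8 i j fun e' => e (hy.2 i j e' c c1)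
  rw [c2, ← comm_tor c4, mul_inv_cancel_right]

end Vale.Agent.P092AG
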