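import Vale.Agent.P092AG.C3

/-!
P092, group side (helper91): the translates of the big cell by the normaliser of the torus cover `G`.
-/

set_option linter.all false

open Matrix Filter Topology
open scoped Matrix.Norms.Elementwise Classical

namespace Vale.Agent.P092AG

open Vale.Agent.P092TO

variable {n : ℕ} {k : Type} [NontriviallyNormedField k] {G : Subgroup (GL (Fin n) k)}
  {𝔤 : Submodule k (Mt n k)} {y : Fin n → ℤ} {K : Type} [NormedField K] [NormedAlgebra k K]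

theorem LT.lim {X : Type} {F : X → kˣ → k} (h : LT F) (h0 : ∃ x t, F x t ≠ 0) :
    ∃ (d : ℤ) (V : X → k), (∃ x, V x ≠ 0) ∧ ∀ x, ∀ t : ℕ → kˣ, Tendsto (fun j => (t j : k)) atTop (𝓝 0) →
      Tendsto (fun j => (t j : k) ^ d * F x (t j)) atTop (𝓝 (V x)) := by
  obtain ⟨M, hM⟩ := h
  choose q hq using hM
  have h1 : ∃ d, ∃ x, (q x).coeff d ≠ 0 := by
    obtain ⟨x, t, h0⟩ := h0
    by_contra h
    push Not at h
    have := hq x t
    rw [show q x = 0 from Polynomial.ext fun d => h d x, Polynomial.eval_zero] at this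
    exact mul_ne_zero (pow_ne_zero _ t.ne_zero) h0 this
  refine ⟨M - Nat.find h1, fun x => (q x).coeff (Nat.find h1), Nat.find_spec h1, fun x t ht => ?_⟩
  obtain ⟨r, hr⟩ : Polynomial.X ^ Nat.find h1 ∣ q x := Polynomial.X_pow_dvd_iff.2 fun d hd =>
    not_not.1 fun e => Nat.find_min h1 hd ⟨x, e⟩
  have h2 : (q x).coeff (Nat.find h1) = r.eval 0 := by
    rw [hr, ← Polynomial.coeff_zero_eq_eval_zero]
    simpa using Polynomial.coeff_X_pow_mul r (Nat.find h1) 0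
  simp only [h2]
  refine ((r.continuous.tendsto 0).comp ht).congr fun j => ?_
  have h3 := hq x (t j)
  rw [hr, Polynomial.eval_mul, Polynomial.eval_pow, Polynomial.eval_X] at h3
  rw [zpow_sub₀ (t j).ne_zero, zpow_natCast, zpow_natCast, div_mul_eq_mul_div, h3,
    mul_div_cancel_left₀ _ (pow_ne_zero _ (t j).ne_zero), Function.comp_apply]

/-- a closed invariant set contains a point fixed by a cocharacter -/
theorem exists_fixed [ProperSpace k] (hn : Nice G 𝔤) (hc : Cell G) (hy : y ∈ Y G) {b : Fin n → ℤ}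
    (hb : b ∈ Y G) {A : Set (GL (Fin n) k)} (hA : IsClosed A) {g : GL (Fin n) k} (hg : g ∈ G)
    (h : ∀ t, ∀ x ∈ Hs G y, tor b t * g * x ∈ A) :
    ∃ c ∈ A, c ∈ G ∧ ∀ t, c⁻¹ * tor b t * c ∈ Hs G y := by
  obtain ⟨C, h1, h2, h3⟩ := iwa hn hc hy
  obtain ⟨ϖ, -, hϖ⟩ := exists_unif k
  choose c h4 h5 using fun j : ℕ => h3 _ (mul_mem (hb (ϖ ^ j)) hg)
  have : FirstCountableTopology (Mt n k) := inferInstanceAs (FirstCountableTopology (Fin n → Fin n → k))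
  have : FirstCountableTopology (GL (Fin n) k) := emb_val.firstCountableTopology
  obtain ⟨c₀, h6, φ, hφ, h7⟩ := h1.tendsto_subseq h4
  have ht : Tendsto (fun j => ((ϖ ^ φ j : kˣ) : k)) atTop (𝓝 0) := hϖ.comp hφ.tendsto_atTop
  obtain ⟨d, V, ⟨x₀, h8⟩, h9⟩ := ((pf_fy y).lt (lt_tor (fun x : G => ((x : GL (Fin n) k) : Mt n k))
    (fun _ => (g : Mt n k)) b)).lim ⟨⟨g⁻¹, inv_mem hg⟩, 1, by simp [tor_one, fy_one]⟩
  have a1 : ∀ (x : G) (j : ℕ), fy y (((x : GL (Fin n) k) : Mt n k) *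
      ((tor b (ϖ ^ j) : GL (Fin n) k) : Mt n k) * (g : Mt n k)) = fy y ((x * c j : GL (Fin n) k) : Mt n k) *
        fy y (((c j)⁻¹ * (tor b (ϖ ^ j) * g) : GL (Fin n) k) : Mt n k) := fun x j => by
    rw [← (h5 j).2 _ (mul_mem x.2 (h2 (h4 j))), ← Units.val_mul, ← Units.val_mul]
    congr 2
    group
  have a2 : ∀ x : G, Tendsto (fun j => fy y ((x * c (φ j) : GL (Fin n) k) : Mt n k)) atTop
      (𝓝 (fy y ((x * c₀ : GL (Fin n) k) : Mt n k))) := fun x =>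
    ((pf_fy y).contGL.tendsto _).comp (h7.const_mul _)
  have a3 : ∀ x : G, V x = V ⟨c₀⁻¹, inv_mem (h2 h6)⟩ * fy y ((x * c₀ : GL (Fin n) k) : Mt n k) := fun x => by
    have b1 := (h9 x _ ht).mul (a2 ⟨c₀⁻¹, inv_mem (h2 h6)⟩)
    have b2 := (h9 ⟨c₀⁻¹, inv_mem (h2 h6)⟩ _ ht).mul (a2 x)
    have b3 := tendsto_nhds_unique b1 (b2.congr fun j => by
      have e1 := a1 x (φ j)
      have e2 := a1 ⟨c₀⁻¹, inv_mem (h2 h6)⟩ (φ j)
      dsimp only at e1 e2 ⊢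
      rw [e1, e2]; ring)
    rwa [inv_mul_cancel, Units.val_one, fy_one, mul_one] at b3
  have a4 : V ⟨c₀⁻¹, inv_mem (h2 h6)⟩ ≠ 0 := fun e => h8 (by rw [a3, e, zero_mul])
  have a5 : ∀ (x : G) (s : kˣ), V (x * ⟨tor b s, hb s⟩) = (s : k) ^ (-d) * V x := fun x s => by
    have b1 := h9 (x * ⟨tor b s, hb s⟩) _ ht
    have b2 := (h9 x (fun j => s * ϖ ^ φ j) (by simpa using ht.const_mul (s : k))).const_mul
      ((s : k) ^ (-d))
    refine tendsto_nhds_unique b1 (b2.congr fun j => ?_)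
    rw [tor_mul, Units.val_mul s, _root_.mul_zpow, _root_.zpow_neg, mul_assoc ((s : k) ^ d),
      inv_mul_cancel_left₀ (zpow_ne_zero _ s.ne_zero), Units.val_mul, ← mul_assoc]
    rfl
  have a6 : ∀ s, ∀ w ∈ G, fy y ((w * (c₀⁻¹ * tor b s * c₀) : GL (Fin n) k) : Mt n k) =
      (s : k) ^ (-d) * fy y (w : Mt n k) := fun s w hw => by
    have b1 := a5 ⟨w * c₀⁻¹, mul_mem hw (inv_mem (h2 h6))⟩ s
    rw [a3, a3 ⟨w * c₀⁻¹, _⟩, mul_left_comm] at b1
    have b2 := mul_left_cancel₀ a4 b1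
    simp only [Subgroup.coe_mul, inv_mul_cancel_right] at b2
    rw [← b2]
    congr 2
    group
  refine ⟨c₀, hA.mem_of_tendsto h7 (Eventually.of_forall fun j => ?_), h2 h6, fun s =>
    ⟨mul_mem (mul_mem (inv_mem (h2 h6)) (hb s)) (h2 h6), fun w hw => ?_⟩⟩
  · have := h (ϖ ^ φ j) _ (inv_mem (h5 (φ j)))
    rwa [_root_.mul_inv_rev, inv_inv, ← mul_assoc, mul_inv_cancel, one_mul] at this
  · have := a6 s 1 G.one_mem
    rw [one_mul, Units.val_one, fy_one, mul_one] at this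
    rw [a6 s w hw, this, mul_comm]

/-- a closed invariant set contains a point fixed by the torus -/
theorem exists_fixed_all [ProperSpace k] (hn : Nice G 𝔤) (hc : Cell G) (hy : y ∈ Y G)
    {A : Set (GL (Fin n) k)} (hA : IsClosed A) (hG : A ⊆ G) (h0 : A.Nonempty)
    (h : ∀ b ∈ Y G, ∀ t, ∀ g ∈ A, ∀ x ∈ Hs G y, tor b t * g * x ∈ A) :
    ∃ c ∈ A, ∀ b ∈ Y G, ∀ t, c⁻¹ * tor b t * c ∈ Hs G y := by
  let T : GL (Fin n) k → Submodule ℤ (Fin n → ℤ) := fun g =>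
    AddSubgroup.toIntSubmodule (Y G ⊓ Y ((Hs G y).map (MulAut.conj g).toMonoidHom))
  have hT : ∀ g b, b ∈ T g ↔ b ∈ Y G ∧ ∀ t, g⁻¹ * tor b t * g ∈ Hs G y := fun g b =>
    and_congr_right fun _ => forall_congr' fun t => mem_cj
  obtain ⟨_, ⟨g, hg, rfl⟩, hmax⟩ := set_has_maximal_iff_noetherian.2 inferInstance (T '' A) (h0.image T)
  refine ⟨g, hg, fun b hb => ?_⟩
  obtain ⟨c, ⟨h1, h2⟩, -, h3⟩ := exists_fixed hn hc hy hb
    (A := A ∩ ⋂ a ∈ T g, ⋂ t, {c | c⁻¹ * tor a t * c ∈ Hs G y})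
    (hA.inter (isClosed_biInter fun a _ => isClosed_iInter fun t =>
      (isClosed_Hs hn.closed.isClosed y).preimage
        ((continuous_inv.mul continuous_const).mul continuous_id))) (hG hg) fun t x hx =>
    ⟨h b hb t g hg x hx, Set.mem_iInter₂.2 fun a ha => Set.mem_iInter.2 fun s => by
      have : (tor b t * g * x)⁻¹ * tor a s * (tor b t * g * x) = x⁻¹ * (g⁻¹ * tor a s * g) * x := by
        calc _ = x⁻¹ * g⁻¹ * (tor b t)⁻¹ * (tor a s * tor b t) * g * x := by group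
          _ = _ := by rw [tor_comm]; group
      rw [Set.mem_setOf_eq, this]
      exact mul_mem (mul_mem (inv_mem hx) (((hT g a).1 ha).2 s)) hx⟩
  have h4 : T g ≤ T c := fun a ha => (hT c a).2 ⟨((hT g a).1 ha).1, fun t =>
    Set.mem_iInter.1 (Set.mem_iInter₂.1 h2 a ha) t⟩
  have h5 : T g = T c := h4.eq_of_not_lt (hmax _ ⟨c, h1, rfl⟩)
  exact ((hT g b).1 (h5 ▸ (hT c b).2 ⟨hb, h3⟩)).2

variable [IsAlgClosed K] [ProperSpace k]

/-- a closed set invariant under the torus and `Hs` meets the normaliser of the torus -/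
theorem exists_Nm (hn : Nice G 𝔤) (hc : Cell G) (hm : Max K G) (hy : Reg G y)
    {A : Set (GL (Fin n) k)} (hA : IsClosed A) (hG : A ⊆ G) (h0 : A.Nonempty)
    (h : ∀ b ∈ Y G, ∀ t, ∀ g ∈ A, ∀ x ∈ Hs G y, tor b t * g * x ∈ A) : ∃ m ∈ A, m ∈ Nm G := by
  obtain ⟨c, h1, h2⟩ := exists_fixed_all hn hc hy.1 hA hG h0 h
  obtain ⟨x, h3, h4⟩ := conj_Nm hn hc hm hy (hG h1) h2
  exact ⟨_, by simpa [tor_zero] using h 0 (zero_mem _) 1 c h1 x h3, h4⟩

theorem fy_Nm_tor {m : GL (Fin n) k} (hm : m ∈ Nm G) {b : Fin n → ℤ} (hb : b ∈ Y G) (t : kˣ)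
    (g : GL (Fin n) k) : fy y ((m * (tor b t * g) : GL (Fin n) k) : Mt n k) =
      fy y ((m * tor b t * m⁻¹ : GL (Fin n) k) : Mt n k) * fy y ((m * g : GL (Fin n) k) : Mt n k) := by
  obtain ⟨b', -, e⟩ := hm.2.1 b hb
  rw [← fy_left (e t ▸ Lgl_le_Pgl_neg y (tor_mem_Lgl b' y t)), ← Units.val_mul]
  congr 2
  group

/-- **Covering.** -/
theorem cov0 (hn : Nice G 𝔤) (hc : Cell G) (hm : Max K G) (hy : Reg G y) {g : GL (Fin n) k}
    (hg : g ∈ G) : ∃ m ∈ Nm G, fy y ((m * g : GL (Fin n) k) : Mt n k) ≠ 0 := by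
  by_contra h
  push Not at h
  obtain ⟨m, h1, h2⟩ := exists_Nm hn hc hm hy (A := (G : Set (GL (Fin n) k)) ∩
      ⋂ m ∈ Nm G, {g | fy y ((m * g : GL (Fin n) k) : Mt n k) = 0})
    (hn.closed.isClosed.inter (isClosed_biInter fun m _ => isClosed_eq
      ((pf_fy y).contGL.comp (continuous_const.mul continuous_id)) continuous_const))
    Set.inter_subset_left ⟨g, hg, Set.mem_iInter₂.2 h⟩ fun b hb t g hg x hx =>
      ⟨mul_mem (mul_mem (hb t) hg.1) hx.1, Set.mem_iInter₂.2 fun m hm => by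
        rw [Set.mem_setOf_eq, ← mul_assoc, hx.2 _ (mul_mem hm.1 (mul_mem (hb t) hg.1)), fy_Nm_tor hm hb,
          Set.mem_iInter₂.1 hg.2 m hm, mul_zero, zero_mul]⟩
  have := Set.mem_iInter₂.1 h1.2 _ (inv_mem h2)
  rw [Set.mem_setOf_eq, inv_mul_cancel, Units.val_one, fy_one] at this
  exact one_ne_zero this

/-- **Covering, quantitative form**, for any set of representatives of the Weyl group. -/
theorem cov (hn : Nice G 𝔤) (hc : Cell G) (hm : Max K G) (hy : Reg G y) {T : Set (GL (Fin n) k)}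
    (hT : ∀ m ∈ Nm G, ∃ r ∈ T, m * r⁻¹ ∈ Zc G) : ∃ R : GL (Fin n) k → ℝ, ∀ g ∈ G, ∃ r ∈ T, ∀ w ∈ G,
      ‖fy y ((w * g : GL (Fin n) k) : Mt n k)‖ ≤ R w * ‖fy y ((r * g : GL (Fin n) k) : Mt n k)‖ := by
  obtain ⟨C, h1, h2, h3⟩ := iwa hn hc hy.1
  have hG : ∀ m ∈ Nm G, ∃ r ∈ T, r ∈ G ∧ m * r⁻¹ ∈ Zc G := fun m hm =>
    let ⟨r, a, b⟩ := hT m hm
    ⟨r, a, by simpa using mul_mem (inv_mem (mem_Zc.1 b).1) hm.1, b⟩
  let O : {r // r ∈ T ∧ r ∈ G} × ℕ → Set (GL (Fin n) k) := fun p =>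
    {c | 1 / ((p.2 : ℝ) + 1) < ‖fy y ((p.1 * c : GL (Fin n) k) : Mt n k)‖}
  obtain ⟨S, hS⟩ := h1.elim_finite_subcover O (fun p => isOpen_lt continuous_const
    ((pf_fy y).contGL.comp (continuous_const.mul continuous_id)).norm) fun c hc' => by
      obtain ⟨m, a1, a2⟩ := cov0 hn hc hm hy (h2 hc')
      obtain ⟨r, a3, a4, a5⟩ := hG m a1
      have a6 : m * c = m * r⁻¹ * (r * c) := by group
      rw [a6, Units.val_mul, fy_left (Lgl_le_Pgl_neg y ((mem_Zc.1 a5).2 y hy.1))] at a2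
      obtain ⟨l, hl⟩ := exists_nat_one_div_lt (norm_pos_iff.2 (right_ne_zero_of_mul a2))
      exact Set.mem_iUnion.2 ⟨(⟨r, a3, a4⟩, l), hl⟩
  obtain ⟨N, hN⟩ := (S.finite_toSet.image Prod.snd).bddAbove
  choose B hB using fun w : GL (Fin n) k => (h1.image (f := fun c =>
    fy y ((w * c : GL (Fin n) k) : Mt n k))
      ((pf_fy y).contGL.comp (continuous_const.mul continuous_id))).isBounded.exists_norm_le
  refine ⟨fun w => B w * (N + 1), fun g hg => ?_⟩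
  obtain ⟨c, a1, a2⟩ := h3 g hg
  obtain ⟨p, a3, a4⟩ := Set.mem_iUnion₂.1 (hS a1)
  refine ⟨p.1, p.1.2.1, fun w hw => ?_⟩
  have a5 : ∀ v ∈ G, ‖fy y ((v * g : GL (Fin n) k) : Mt n k)‖ = ‖fy y ((v * c : GL (Fin n) k) : Mt n k)‖ *
      ‖fy y ((c⁻¹ * g : GL (Fin n) k) : Mt n k)‖ := fun v hv => by
    rw [← norm_mul, ← a2.2 _ (mul_mem hv (h2 a1)), mul_assoc, mul_inv_cancel_left]
  rw [a5 w hw, a5 _ p.1.2.2, ← mul_assoc]
  refine mul_le_mul_of_nonneg_right ?_ (norm_nonneg _)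
  have a6 := hB w _ ⟨c, a1, rfl⟩
  have a7 : (p.2 : ℝ) ≤ N := by exact_mod_cast hN ⟨p, a3, rfl⟩
  have a8 : 1 ≤ ((N : ℝ) + 1) * ‖fy y ((p.1 * c : GL (Fin n) k) : Mt n k)‖ :=
    ((div_le_iff₀' (by positivity)).1 (le_of_lt a4)).trans
      (mul_le_mul_of_nonneg_right (by linarith) (norm_nonneg _))
  rw [mul_assoc]
  exact a6.trans (le_mul_of_one_le_right ((norm_nonneg _).trans a6) a8)

end Vale.Agent.P092AG
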