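import Vale.Agent.P092AG.C4
import Vale.Agent.P092AL.CovD
import Vale.Agent.P092AL.Cell

/-!
P092, group side (helper91): the covering property in the form used for the root datum.
-/

set_option linter.all false

open scoped Matrix.Norms.Elementwise

namespace Vale.Agent.P092AG

variable {n : ℕ} {k : Type} [NontriviallyNormedField k] {K : Type} [NormedField K] [NormedAlgebra k K]
  {G : Subgroup (GL (Fin n) k)} {𝔤 : Submodule k (Mt n k)} {y : Fin n → ℤ}
  [IsAlgClosed K] [ProperSpace k]

theorem Nice.cov (hn : Nice G 𝔤) (hm : Max K G) (hy : Reg G y) : Cov G y := by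
  obtain ⟨T, h1, h2, h3⟩ := Nm_fin G
  obtain ⟨R, hR⟩ := P092AG.cov hn hn.cell hm hy h3
  exact ⟨h1.toFinset, R, fun e he => h2 (h1.mem_toFinset.1 he), fun g hg =>
    let ⟨r, a, b⟩ := hR g hg; ⟨r, h1.mem_toFinset.2 a, b⟩⟩

end Vale.Agent.P092AG
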