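import Mathlib.LinearAlgebra.Matrix.GeneralLinearGroup.Defs
import Mathlib.LinearAlgebra.Matrix.Block
import Mathlib.Topology.Instances.Matrix
import Mathlib.Analysis.Matrix.Normed
import Mathlib.Analysis.Analytic.Basic
import Mathlib.Analysis.Calculus.FDeriv.Defs
import Mathlib.Analysis.SpecialFunctions.Log.Basic
import Mathlib.Algebra.MvPolynomial.Eval
import Mathlib.RingTheory.Ideal.Prime
import Mathlib.RingTheory.Ideal.Span
import Vale.Agent.P092AL.LDU

/-!
P092, group side (helper91): algebraic groups over local fields. The class of the absolutely simple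
groups, the properties `Nice`, `Simp`, `Max` used by the structure theory, and the objects attached to
a cocharacter. Only definitions.
-/

set_option linter.all false

open Matrix Filter Topology
open scoped Matrix.Norms.Elementwise

namespace Vale.Agent.P092AG

/-- square matrices -/
abbrev Mt (n : ℕ) (R : Type) := Matrix (Fin n) (Fin n) R

/-- polynomials in the entries of a matrix -/
abbrev Pl (n : ℕ) (R : Type) [CommRing R] := MvPolynomial (Fin n × Fin n) R

section Alg

variable {n : ℕ} {R : Type} [Field R]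

/-- the value of a polynomial at a matrix -/
noncomputable def ev (x : Mt n R) : Pl n R →+* R := MvPolynomial.eval fun ij => x ij.1 ij.2

/-- the ideal of the polynomials vanishing on a set of invertible matrices -/
def van (S : Set (GL (Fin n) R)) : Ideal (Pl n R) where
  carrier := {p | ∀ g ∈ S, ev (g : Mt n R) p = 0}
  add_mem' := fun hp hq g hg => by rw [map_add, hp g hg, hq g hg, add_zero]
  zero_mem' := fun g _ => map_zero _
  smul_mem' := fun c p hp g hg => by rw [smul_eq_mul, map_mul, hp g hg, mul_zero]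

/-- `S` is Zariski closed in `GL_n(R)` -/
def ZCl (S : Set (GL (Fin n) R)) : Prop :=
  ∀ g : GL (Fin n) R, (∀ p ∈ van S, ev (g : Mt n R) p = 0) → g ∈ S

/-- `𝔾` is the group of `K`-points of a connected absolutely simple algebraic group over `k`, where `K`
is an algebraic closure of `k`: it is a Zariski closed, irreducible, noncommutative subgroup of `GL_n(K)`
whose ideal is generated by polynomials over `k` and whose proper Zariski closed normal subgroups are
finite. -/
structure AbsSimple (k : Type) [Field k] {K : Type} [Field K] [Algebra k K] {n : ℕ}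
    (𝔾 : Subgroup (GL (Fin n) K)) : Prop where
  closed : ZCl (𝔾 : Set (GL (Fin n) K))
  conn : (van (𝔾 : Set (GL (Fin n) K))).IsPrime
  defd : van (𝔾 : Set (GL (Fin n) K)) ≤ Ideal.span {q | q ∈ van (𝔾 : Set (GL (Fin n) K)) ∧
    ∃ p : Pl n k, q = MvPolynomial.map (algebraMap k K) p}
  ncomm : ∃ g ∈ 𝔾, ∃ h ∈ 𝔾, g * h ≠ h * g
  simple : ∀ N : Subgroup (GL (Fin n) K), N ≤ 𝔾 → ZCl (N : Set (GL (Fin n) K)) →
    (∀ g ∈ 𝔾, ∀ x ∈ N, g * x * g⁻¹ ∈ N) → N = 𝔾 ∨ (N : Set (GL (Fin n) K)).Finite

/-- the group of `k`-points -/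
def pts (k : Type) [Field k] {K : Type} [Field K] [Algebra k K] {n : ℕ}
    (𝔾 : Subgroup (GL (Fin n) K)) : Subgroup (GL (Fin n) k) :=
  𝔾.comap (Matrix.GeneralLinearGroup.map (algebraMap k K))

/-- polynomial functions on matrices -/
def PF (F : Mt n R → R) : Prop := ∃ p : Pl n R, ∀ x, F x = ev x p

/-- the matrix `x` belongs to `G` -/
def Mem (G : Subgroup (GL (Fin n) R)) (x : Mt n R) : Prop := ∃ g ∈ G, (g : Mt n R) = x

/-- the value at `t` of the cocharacter `y` of the diagonal torus -/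
def tor (y : Fin n → ℤ) (t : Rˣ) : GL (Fin n) R where
  val := diagonal fun i => ((t ^ y i : Rˣ) : R)
  inv := diagonal fun i => ((t ^ (-y i) : Rˣ) : R)
  val_inv := by
    rw [diagonal_mul_diagonal, ← diagonal_one]; congr 1; funext i
    rw [← Units.val_mul, ← zpow_add, add_neg_cancel, zpow_zero, Units.val_one]
  inv_val := by
    rw [diagonal_mul_diagonal, ← diagonal_one]; congr 1; funext i
    rw [← Units.val_mul, ← zpow_add, neg_add_cancel, zpow_zero, Units.val_one]

/-- the cocharacters of the diagonal torus with values in `G` -/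
def Y (G : Subgroup (GL (Fin n) R)) : AddSubgroup (Fin n → ℤ) where
  carrier := {y | ∀ t : Rˣ, tor y t ∈ G}
  add_mem' := fun {a b} ha hb t => by
    have : tor (a + b) t = tor a t * tor b t := by
      ext i j
      simp only [tor, Units.val_mul, diagonal_mul_diagonal, Pi.add_apply, zpow_add]
    rw [this]; exact G.mul_mem (ha t) (hb t)
  zero_mem' := fun t => by
    have : tor (0 : Fin n → ℤ) t = 1 := by ext i j; simp [tor]
    rw [this]; exact G.one_mem
  neg_mem' := fun {a} ha t => by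
    have : tor (-a) t = (tor a t)⁻¹ := by ext i j; rfl
    rw [this]; exact G.inv_mem (ha t)

/-- the indices `i`, `j` have the same weight -/
def Sim (G : Subgroup (GL (Fin n) R)) (i j : Fin n) : Prop := ∀ y ∈ Y G, y i = y j

/-- regular cocharacters -/
def Reg (G : Subgroup (GL (Fin n) R)) (y : Fin n → ℤ) : Prop := y ∈ Y G ∧ ∀ i j, y i = y j → Sim G i j

/-- matrices which do not lower the weight -/
def IsP (y : Fin n → ℤ) (x : Mt n R) : Prop := ∀ i j, y i < y j → x i j = 0

/-- matrices which preserve the weight -/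
def IsL (y : Fin n → ℤ) (x : Mt n R) : Prop := ∀ i j, y i ≠ y j → x i j = 0

/-- matrices `x` such that `x - 1` raises the weight -/
def IsU (y : Fin n → ℤ) (x : Mt n R) : Prop := ∀ i j, y i ≤ y j → x i j = (1 : Mt n R) i j

theorem isP_iff (y : Fin n → ℤ) (x : Mt n R) : IsP y x ↔ BlockTriangular x (-y) := by
  constructor
  · intro h i j hij; exact h i j (by simpa using hij)
  · intro h i j hij; exact h (by simpa using hij)

theorem IsP.mul {y : Fin n → ℤ} {x x' : Mt n R} (h : IsP y x) (h' : IsP y x') : IsP y (x * x') :=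
  (isP_iff _ _).2 (((isP_iff _ _).1 h).mul ((isP_iff _ _).1 h'))

theorem IsP.inv {y : Fin n → ℤ} {g : GL (Fin n) R} (h : IsP y (g : Mt n R)) :
    IsP y ((g⁻¹ : GL (Fin n) R) : Mt n R) := by
  have := g.invertible
  rw [isP_iff, Matrix.coe_units_inv]
  exact blockTriangular_inv_of_blockTriangular ((isP_iff _ _).1 h)

/-- the parabolic subgroup of `GL_n` defined by `y` -/
def Pgl (y : Fin n → ℤ) : Subgroup (GL (Fin n) R) where
  carrier := {g | IsP y (g : Mt n R)}
  mul_mem' := fun ha hb => IsP.mul ha hb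
  one_mem' := fun i j hij => one_apply_ne (fun e => by rw [e] at hij; exact lt_irrefl _ hij)
  inv_mem' := fun ha => IsP.inv ha

theorem isL_iff (y : Fin n → ℤ) (x : Mt n R) : IsL y x ↔ IsP y x ∧ IsP (-y) x := by
  constructor
  · intro h
    exact ⟨fun i j hij => h i j hij.ne, fun i j hij => h i j (by intro e; simp [e] at hij)⟩
  · rintro ⟨h, h'⟩ i j hij
    rcases lt_or_gt_of_ne hij with hl | hl
    · exact h i j hl
    · exact h' i j (by simpa using hl)

/-- the Levi subgroup of `GL_n` defined by `y` -/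
def Lgl (y : Fin n → ℤ) : Subgroup (GL (Fin n) R) :=
  (Pgl y ⊓ Pgl (-y)).copy {g | IsL y (g : Mt n R)} (Set.ext fun g => isL_iff y (g : Mt n R))

theorem IsU.isP {y : Fin n → ℤ} {x : Mt n R} (h : IsU y x) : IsP y x := fun i j hij => by
  rw [h i j hij.le]; exact one_apply_ne (fun e => by rw [e] at hij; exact lt_irrefl _ hij)

theorem IsP.mul_isU {y : Fin n → ℤ} {x x' : Mt n R} (h : IsP y x) (h' : IsU y x') {i j : Fin n}
    (hij : y i ≤ y j) : (x * x') i j = x i j := by
  conv_rhs => rw [← mul_one x]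
  rw [mul_apply, mul_apply]
  refine Finset.sum_congr rfl fun l _ => ?_
  by_cases hl : y l ≤ y j
  · rw [h' l j hl]
  · rw [h i l (by omega), zero_mul, zero_mul]

/-- the unipotent radical of the parabolic subgroup of `GL_n` defined by `y` -/
def Ugl (y : Fin n → ℤ) : Subgroup (GL (Fin n) R) where
  carrier := {g | IsU y (g : Mt n R)}
  mul_mem' := fun {a b} ha hb i j hij => by
    rw [Units.val_mul, (IsU.isP ha).mul_isU hb hij]; exact ha i j hij
  one_mem' := fun i j _ => rfl
  inv_mem' := fun {a} ha i j hij => by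
    rw [← ((IsU.isP ha).inv).mul_isU ha hij, ← Units.val_mul, inv_mul_cancel, Units.val_one]

/-- the principal minor on the indices of weight `> a` -/
abbrev mn (y : Fin n → ℤ) (a : ℤ) (x : Mt n R) : R := P092AL.mn y a x

/-- the product of the principal minors, the equation of the big cell -/
abbrev fy (y : Fin n → ℤ) (x : Mt n R) : R := P092AL.ff y x

/-- the first factor in the big cell -/
noncomputable def loG (y : Fin n → ℤ) (g : GL (Fin n) R) : GL (Fin n) R where
  val := P092AL.lo y (g : Mt n R)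
  inv := P092AL.li y (g : Mt n R)
  val_inv := nonsing_inv_mul _ P092AL.un_li.unit
  inv_val := mul_nonsing_inv _ P092AL.un_li.unit

/-- the last factor in the big cell -/
noncomputable def upG (y : Fin n → ℤ) (g : GL (Fin n) R) : GL (Fin n) R where
  val := P092AL.up y (g : Mt n R)
  inv := P092AL.ui y (g : Mt n R)
  val_inv := nonsing_inv_mul _ P092AL.un_ui.unit
  inv_val := mul_nonsing_inv _ P092AL.un_ui.unit

/-- the middle factor in the big cell -/
noncomputable def mdG (y : Fin n → ℤ) (g : GL (Fin n) R) : GL (Fin n) R :=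
  (loG y g)⁻¹ * g * (upG y g)⁻¹

/-- the centraliser of the torus -/
def Zc (G : Subgroup (GL (Fin n) R)) : Subgroup (GL (Fin n) R) := G ⊓ ⨅ y ∈ Y G, Lgl y

/-- the normaliser of the torus -/
def Nm (G : Subgroup (GL (Fin n) R)) : Subgroup (GL (Fin n) R) where
  carrier := {g | g ∈ G ∧ (∀ y ∈ Y G, ∃ y' ∈ Y G, ∀ t, g * tor y t * g⁻¹ = tor y' t) ∧
    ∀ y ∈ Y G, ∃ y' ∈ Y G, ∀ t, g⁻¹ * tor y t * g = tor y' t}
  mul_mem' := fun {a b} ha hb => by
    refine ⟨G.mul_mem ha.1 hb.1, fun y hy => ?_, fun y hy => ?_⟩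
    · obtain ⟨y1, h1, e1⟩ := hb.2.1 y hy
      obtain ⟨y2, h2, e2⟩ := ha.2.1 y1 h1
      exact ⟨y2, h2, fun t => by rw [← e2, ← e1]; group⟩
    · obtain ⟨y1, h1, e1⟩ := ha.2.2 y hy
      obtain ⟨y2, h2, e2⟩ := hb.2.2 y1 h1
      exact ⟨y2, h2, fun t => by rw [← e2, ← e1]; group⟩
  one_mem' := ⟨G.one_mem, fun y hy => ⟨y, hy, fun t => by group⟩, fun y hy => ⟨y, hy, fun t => by group⟩⟩
  inv_mem' := fun {a} ha => ⟨G.inv_mem ha.1, fun y hy => by simpa using ha.2.2 y hy,
    fun y hy => by simpa using ha.2.1 y hy⟩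

theorem fy_one (y : Fin n → ℤ) : fy y (1 : Mt n R) = 1 := P092AL.ff_one

/-- the stabiliser of the line of `fy y` under right translations -/
def Hs (G : Subgroup (GL (Fin n) R)) (y : Fin n → ℤ) : Subgroup (GL (Fin n) R) where
  carrier := {h | h ∈ G ∧ ∀ x ∈ G, fy y ((x * h : GL (Fin n) R) : Mt n R) = fy y (x : Mt n R) * fy y (h : Mt n R)}
  mul_mem' := fun {a b} ha hb => by
    refine ⟨G.mul_mem ha.1 hb.1, fun x hx => ?_⟩
    rw [← mul_assoc, hb.2 _ (G.mul_mem hx ha.1), ha.2 x hx, hb.2 a ha.1, mul_assoc]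
  one_mem' := ⟨G.one_mem, fun x _ => by rw [mul_one, Units.val_one, fy_one, mul_one]⟩
  inv_mem' := fun {a} ha => by
    refine ⟨G.inv_mem ha.1, fun x hx => ?_⟩
    have h1 := ha.2 _ (G.inv_mem ha.1)
    have h2 := ha.2 _ (G.mul_mem hx (G.inv_mem ha.1))
    rw [inv_mul_cancel, Units.val_one, fy_one] at h1
    rw [inv_mul_cancel_right] at h2
    rw [h2, mul_assoc, mul_comm (fy y (a : Mt n R)), ← h1, mul_one]

end Alg

section Top

variable {n : ℕ} {k : Type} [NontriviallyNormedField k]

/-- `G` is near `1` an analytic submanifold with tangent space `𝔤` -/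
def Chart (G : Subgroup (GL (Fin n) k)) (𝔤 : Submodule k (Mt n k)) : Prop :=
  ∃ θ : Mt n k → Mt n k, AnalyticAt k θ 1 ∧ θ 1 = 0 ∧
    HasFDerivAt θ (ContinuousLinearMap.id k (Mt n k)) 1 ∧ ∀ᶠ x in 𝓝 (1 : Mt n k), Mem G x ↔ θ x ∈ 𝔤

/-- the properties of the points of a connected algebraic group which pass to Levi subgroups -/
structure Nice (G : Subgroup (GL (Fin n) k)) (𝔤 : Submodule k (Mt n k)) : Prop where
  det1 : ∀ g ∈ G, (g : Mt n k).det = 1
  closed : ZCl (G : Set (GL (Fin n) k))
  prime : (van (G : Set (GL (Fin n) k))).IsPrime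
  dense : ∀ p : Pl n k, (∀ᶠ x in 𝓝 (1 : Mt n k), Mem G x → ev x p = 0) →
    p ∈ van (G : Set (GL (Fin n) k))
  chart : Chart G 𝔤

/-- the consequences of absolute simplicity -/
structure Simp (G : Subgroup (GL (Fin n) k)) : Prop where
  ncomm : ∃ g ∈ G, ∃ h ∈ G, g * h ≠ h * g
  norm : ∀ N : Subgroup (GL (Fin n) k), N ≤ G →
    (∀ᶠ g in 𝓝 (1 : GL (Fin n) k), g ∈ G → ∀ x ∈ N, g * x * g⁻¹ ∈ N) →
    (N : Set (GL (Fin n) k)).Finite ∨ van (N : Set (GL (Fin n) k)) ≤ van (G : Set (GL (Fin n) k))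
  prop : ∀ (m : ℕ) (ρ : G →* Mt m k),
    (∀ i j, ∃ p : Pl n k, ∀ g : G, ρ g i j = ev ((g : GL (Fin n) k) : Mt n k) p) → (∃ g, ρ g ≠ 1) →
    ∀ r : ℝ, ∃ r' : ℝ, ∀ g : G, ‖ρ g‖ ≤ r → ‖ρ g⁻¹‖ ≤ r → ‖((g : GL (Fin n) k) : Mt n k)‖ ≤ r'

/-- `c` is an eigenvalue of `x` with an eigenvector supported in `A` -/
def Eig {K : Type} [Field K] [Algebra k K] (A : Set (Fin n)) (x : Mt n k) (c : K) : Prop :=
  ∃ v : Fin n → K, v ≠ 0 ∧ (∀ j, j ∉ A → v j = 0) ∧ x.map (algebraMap k K) *ᵥ v = c • v

/-- the diagonal torus of `G` is a maximal split torus: the eigenvalues of an element of its centraliser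
on a weight space have the same norm, and the vector of their logarithms is in the real span of the
cocharacters -/
def Max (K : Type) [NormedField K] [NormedAlgebra k K] (G : Subgroup (GL (Fin n) k)) : Prop :=
  ∀ z ∈ Zc G, ∃ ν ∈ Submodule.span ℝ ((fun y i => ((y i : ℤ) : ℝ)) '' (Y G : Set (Fin n → ℤ))),
    ∀ (i : Fin n) (c : K), Eig {j | Sim G i j} (z : Mt n k) c → Real.log ‖c‖ = ν i

/-- the elements all of whose eigenvalues have norm one -/
def Ell (K : Type) [NormedField K] [NormedAlgebra k K] (x : Mt n k) : Prop :=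
  ∀ c : K, Eig Set.univ x c → ‖c‖ = 1

end Top

end Vale.Agent.P092AG
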