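import Vale.Agent.P092AG.H1

/-!
P092, group side (helper91): properness of the orbit map of `U⁻ / N` and cocompactness of `Hs`.
-/

set_option linter.all false

open Matrix Filter Topology
open scoped Matrix.Norms.Elementwise

namespace Vale.Agent.P092AG

variable {n : ℕ} {k : Type} [NontriviallyNormedField k] {G : Subgroup (GL (Fin n) k)}
  {𝔤 : Submodule k (Mt n k)} {y : Fin n → ℤ}

theorem PT.continuous {F : k → k} (h : PT F) : Continuous F := by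
  obtain ⟨q, hq⟩ := h
  rw [show F = fun t => q.eval t from funext hq]
  exact q.continuous

theorem sc_cont (y : Fin n → ℤ) (x : Mt n k) : Continuous fun t : k => sc y t x :=
  continuous_pi fun i => continuous_pi fun j => (sc_pt y x i j).continuous

/-- contraction of `U(y)` by the torus -/
theorem tendsto_conj {u : GL (Fin n) k} (hu : u ∈ Ugl y) {ι : Type} {l : Filter ι} {t : ι → kˣ}
    (ht : Tendsto (fun j => (t j : k)) l (𝓝 0)) :
    Tendsto (fun j => tor y (t j) * u * (tor y (t j))⁻¹) l (𝓝 1) := by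
  rw [emb_val.isInducing.tendsto_nhds_iff]
  have := ((sc_cont y (u : Mt n k)).tendsto 0).comp ht
  rw [sc_zero hu] at this
  exact this.congr fun j => (sc_eq (Ugl_le_Pgl y hu) (t j)).symm

theorem exists_unif (k : Type) [NontriviallyNormedField k] :
    ∃ ϖ : kˣ, ‖(ϖ : k)‖ < 1 ∧ Tendsto (fun j : ℕ => ((ϖ ^ j : kˣ) : k)) atTop (𝓝 0) := by
  obtain ⟨x, h0, h1⟩ := NormedField.exists_norm_lt_one k
  refine ⟨Units.mk0 x (norm_pos_iff.1 h0), h1, ?_⟩
  simpa using tendsto_pow_atTop_nhds_zero_of_norm_lt_one h1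

theorem isClosed_Hs (hG : IsClosed (G : Set (GL (Fin n) k))) (y : Fin n → ℤ) :
    IsClosed (Hs G y : Set (GL (Fin n) k)) := by
  have : (Hs G y : Set (GL (Fin n) k)) = (G : Set (GL (Fin n) k)) ∩ ⋂ x ∈ G, {h : GL (Fin n) k |
      fy y ((x * h : GL (Fin n) k) : Mt n k) = fy y (x : Mt n k) * fy y (h : Mt n k)} := by
    ext h; simp [mem_Hs]
  rw [this]
  refine hG.inter (isClosed_biInter fun x _ => isClosed_eq ?_ ?_)
  · exact (pf_fy y).contGL.comp (continuous_const.mul continuous_id)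
  · exact continuous_const.mul (pf_fy y).contGL

theorem fy_conj_U (y : Fin n → ℤ) (t : kˣ) (v u : GL (Fin n) k) :
    fy y ((v * (tor (-y) t * u * (tor (-y) t)⁻¹) : GL (Fin n) k) : Mt n k) =
      fy y ((tor y t * v * (tor y t)⁻¹ * u : GL (Fin n) k) : Mt n k) := by
  rw [← fy_conj_tor y t, ← Units.val_mul, ← Units.val_mul, tor_neg]
  congr 2
  group

/-- **Properness of `U⁻ / N → W`.** -/
theorem propN [ProperSpace k] (hn : Nice G 𝔤) (hc : Cell G) (hy : y ∈ Y G) (R : GL (Fin n) k → ℝ) :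
    ∃ r, ∀ u ∈ G ⊓ Ugl (-y), (∀ w ∈ G, ‖fy y ((w * u : GL (Fin n) k) : Mt n k)‖ ≤ R w) →
      ∃ m ∈ Hs G y ⊓ Ugl (-y), ‖((u * m : GL (Fin n) k) : Mt n k)‖ ≤ r := by
  obtain ⟨ϖ, -, hϖ⟩ := exists_unif k
  let c : kˣ → GL (Fin n) k → GL (Fin n) k := fun t u => tor (-y) t * u * (tor (-y) t)⁻¹
  have c1 : ∀ s t u, c s (c t u) = c (s * t) u := fun s t u => by simp only [c, tor_mul]; group
  have c2 : ∀ t u v, c t (u * v) = c t u * c t v := fun t u v => by simp only [c]; group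
  have c3 : ∀ u, c 1 u = u := fun u => by simp [c, tor_one]
  have hT : ∀ t, tor (-y) t ∈ G ⊓ Lgl y := fun t => ⟨(Y G).neg_mem hy t, tor_mem_Lgl _ _ _⟩
  have c4 : ∀ t, ∀ u ∈ G ⊓ Ugl (-y), c t u ∈ G ⊓ Ugl (-y) := fun t u hu =>
    ⟨tor_conj_mem ((Y G).neg_mem hy) hu.1 t, conj_mem_Ugl (Lgl_le_Pgl_neg y (hT t).2) hu.2⟩
  have c5 : ∀ t, ∀ u ∈ Hs G y ⊓ Ugl (-y), c t u ∈ Hs G y ⊓ Ugl (-y) := fun t u hu => N_conj (hT t) hu
  have c6 : ∀ t, Continuous (c t) := fun t => (continuous_const.mul continuous_id).mul continuous_const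
  have hNU : Hs G y ⊓ Ugl (-y) ≤ G ⊓ Ugl (-y) := inf_le_inf_right _ Hs_le
  let d : GL (Fin n) k → ℝ := fun u => ‖(u : Mt n k) - 1‖
  have hd : Continuous d := (Units.continuous_val.sub continuous_const).norm
  let B : Set (GL (Fin n) k) := ((G ⊓ Ugl (-y) : Subgroup _) : Set _) ∩ {u | d u ≤ 1}
  have hB : IsCompact B := isCompact_of_bdd
    ((hn.closed.isClosed.inter (isClosed_Ugl _)).inter (isClosed_le hd continuous_const))
    (fun g hg => det_U hg.1.2) (r := 1 + ‖(1 : Mt n k)‖) fun g hg => by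
      have := norm_add_le ((g : Mt n k) - 1) 1
      rw [sub_add_cancel] at this
      exact this.trans (add_le_add_left hg.2 _)
  let K : Set (GL (Fin n) k) := B ∩ ⋂ m ∈ Hs G y ⊓ Ugl (-y), {u | 1 ≤ d (c ϖ⁻¹ (u * m))}
  have hK : IsCompact K := hB.inter_right (isClosed_biInter fun m _ => isClosed_le continuous_const
    (hd.comp ((c6 _).comp (continuous_id.mul continuous_const))))
  let O : (G ⊓ Ugl y : Subgroup _) × ℕ → Set (GL (Fin n) k) := fun p =>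
    {u | 1 / ((p.2 : ℝ) + 1) < ‖fy y ((p.1 * u : GL (Fin n) k) : Mt n k) - 1‖}
  obtain ⟨T, hT'⟩ := hK.elim_finite_subcover O (fun p => isOpen_lt continuous_const
    (((pf_fy y).contGL.comp (continuous_const.mul continuous_id)).sub continuous_const).norm)
    (fun u hu => by
      by_contra h0
      have h1 := mem_N_of hn hc hy hu.1.1 fun v hv => by
        by_contra h2
        obtain ⟨l, hl⟩ := exists_nat_one_div_lt (norm_pos_iff.2 (sub_ne_zero.2 h2))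
        exact h0 (Set.mem_iUnion.2 ⟨(⟨v, hv⟩, l), hl⟩)
      have h3 := Set.mem_iInter₂.1 hu.2 _ (Subgroup.inv_mem _ h1)
      simp only [Set.mem_setOf_eq, mul_inv_cancel, c, mul_one, d, Units.val_one, sub_self,
        norm_zero] at h3
      linarith)
  obtain ⟨m, e, Ψ, he, hΨ, hi⟩ := interp' (G := G) (pf_fy y)
  have h1 : ∀ᶠ j : ℕ in atTop, ∀ p ∈ T, ∑ l, ‖Ψ l ((tor y (ϖ ^ j) * p.1 * (tor y (ϖ ^ j))⁻¹ :
      GL (Fin n) k) : Mt n k) - Ψ l ((1 : GL (Fin n) k) : Mt n k)‖ * R (e l) < 1 / ((p.2 : ℝ) + 1) := by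
    rw [Filter.eventually_all_finset]
    intro p _
    have h2 : Tendsto (fun j : ℕ => ∑ l, ‖Ψ l ((tor y (ϖ ^ j) * p.1 * (tor y (ϖ ^ j))⁻¹ :
        GL (Fin n) k) : Mt n k) - Ψ l ((1 : GL (Fin n) k) : Mt n k)‖ * R (e l)) atTop
        (𝓝 (∑ l, ‖Ψ l ((1 : GL (Fin n) k) : Mt n k) - Ψ l ((1 : GL (Fin n) k) : Mt n k)‖ * R (e l))) :=
      tendsto_finset_sum _ fun l _ => ((((hΨ l).contGL.tendsto 1).comp
        (tendsto_conj p.1.2.2 hϖ)).sub_const _).norm.mul_const _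
    simp only [sub_self, norm_zero, zero_mul, Finset.sum_const_zero] at h2
    exact h2.eventually_lt_const Nat.one_div_pos_of_nat
  obtain ⟨j₀, hj₀⟩ := eventually_atTop.1 h1
  obtain ⟨r, hr⟩ := bdd_of_isCompact (hB.image (c6 (ϖ ^ j₀)⁻¹))
  refine ⟨r, fun u hu hR => ?_⟩
  have h2 : ∀ j, j₀ ≤ j → (∃ m ∈ Hs G y ⊓ Ugl (-y), c (ϖ ^ (j + 1)) u * m ∈ B) →
      ∃ m ∈ Hs G y ⊓ Ugl (-y), c (ϖ ^ j) u * m ∈ B := by
    rintro j hj ⟨m, hm, hb⟩
    have h3 : c (ϖ ^ (j + 1)) u * m ∉ K := fun h4 => by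
      obtain ⟨p, hp, h5⟩ := Set.mem_iUnion₂.1 (hT' h4)
      have h6 := hj₀ (j + 1) (by omega) p hp
      have h7 := tor_conj_mem hy p.1.2.1 (ϖ ^ (j + 1))
      simp only [O, Set.mem_setOf_eq] at h5
      rw [← mul_assoc, N_fy hm (G.mul_mem p.1.2.1 (c4 _ u hu).1), fy_conj_U, hi _ h7 u hu.1] at h5
      have h8 := hi 1 G.one_mem u hu.1
      rw [one_mul, fy_U hu.2] at h8
      rw [h8, ← Finset.sum_sub_distrib] at h5
      refine lt_irrefl _ (h5.trans_le ((norm_sum_le _ _).trans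
        ((Finset.sum_le_sum fun l _ => ?_).trans h6.le)))
      rw [← sub_mul, norm_mul]
      exact mul_le_mul_of_nonneg_left (hR _ (he l)) (norm_nonneg _)
    have h4 : ∃ m' ∈ Hs G y ⊓ Ugl (-y), d (c ϖ⁻¹ (c (ϖ ^ (j + 1)) u * m * m')) < 1 := by
      by_contra h5
      push Not at h5
      exact h3 ⟨hb, Set.mem_iInter₂.2 h5⟩
    obtain ⟨m', hm', h5⟩ := h4
    rw [mul_assoc, c2, c1, pow_succ', inv_mul_cancel_left] at h5
    have h6 := c5 ϖ⁻¹ _ (Subgroup.mul_mem _ hm hm')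
    exact ⟨_, h6, Subgroup.mul_mem _ (c4 _ u hu) (hNU h6), h5.le⟩
  have h3 : ∀ᶠ j : ℕ in atTop, d (c (ϖ ^ j) u) < 1 := by
    have := (hd.tendsto 1).comp (tendsto_conj hu.2 hϖ)
    simp only [d, Units.val_one, sub_self, norm_zero] at this
    exact this.eventually_lt_const one_pos
  obtain ⟨j, h4, h5⟩ := (h3.and (eventually_ge_atTop j₀)).exists
  have h6 : ∃ m ∈ Hs G y ⊓ Ugl (-y), c (ϖ ^ j₀) u * m ∈ B :=
    Nat.decreasingInduction' (P := fun j => ∃ m ∈ Hs G y ⊓ Ugl (-y), c (ϖ ^ j) u * m ∈ B)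
      (fun l _ hl h => h2 l hl h) h5
      ⟨1, Subgroup.one_mem _, by rw [mul_one]; exact ⟨c4 _ u hu, h4.le⟩⟩
  obtain ⟨m, hm, h7⟩ := h6
  refine ⟨_, c5 (ϖ ^ j₀)⁻¹ m hm, hr _ ⟨_, h7, ?_⟩⟩
  rw [c2, c1, inv_mul_cancel, c3]

theorem isCompact_U [ProperSpace k] (hn : Nice G 𝔤) (y : Fin n → ℤ) (r : ℝ) :
    IsCompact {u : GL (Fin n) k | u ∈ G ⊓ Ugl y ∧ ‖(u : Mt n k)‖ ≤ r} :=
  isCompact_of_bdd ((hn.closed.isClosed.inter (isClosed_Ugl _)).inter
    (isClosed_le Units.continuous_val.norm continuous_const)) (fun g hg => det_U hg.1.2)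
    fun g hg => hg.2

/-- if `fy y g` is comparable with all `fy y (w g)`, then `g` is in a compact set modulo `Hs` -/
theorem cpt_mod [ProperSpace k] (hn : Nice G 𝔤) (hc : Cell G) (hy : y ∈ Y G) (R : GL (Fin n) k → ℝ) :
    ∃ C : Set (GL (Fin n) k), IsCompact C ∧ C ⊆ (G ⊓ Ugl (-y) : Subgroup _) ∧ ∀ g ∈ G,
      (∀ w ∈ G, ‖fy y ((w * g : GL (Fin n) k) : Mt n k)‖ ≤ R w * ‖fy y (g : Mt n k)‖) →
      ∃ c ∈ C, c⁻¹ * g ∈ Hs G y := by
  obtain ⟨r, hr⟩ := propN hn hc hy R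
  refine ⟨_, isCompact_U hn (-y) r, fun u hu => hu.1, fun g hg h => ?_⟩
  have h0 : fy y (g : Mt n k) ≠ 0 := fun e => by
    have := h _ (G.inv_mem hg)
    rw [inv_mul_cancel, Units.val_one, fy_one, e, norm_zero, mul_zero, norm_one] at this
    linarith
  have h1 : loG y g ∈ G ⊓ Ugl (-y) := ⟨(hc y hy g hg h0).1, loG_mem y g⟩
  have h2 : g = loG y g * (mdG y g * upG y g) := by rw [← mul_assoc, lmu]
  have h3 : fy y ((mdG y g * upG y g : GL (Fin n) k) : Mt n k) = fy y (g : Mt n k) := by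
    rw [Units.val_mul, fy_right (Ugl_le_Pgl y (upG_mem y g)), fy_U (upG_mem y g), mul_one, fy_mdG]
  obtain ⟨m, hm, h4⟩ := hr _ h1 fun w hw => by
    have := h w hw
    conv_lhs at this => rw [h2, ← mul_assoc, Units.val_mul, fy_right (md_up_mem h0), h3, norm_mul]
    exact le_of_mul_le_mul_right this (norm_pos_iff.2 h0)
  refine ⟨_, ⟨Subgroup.mul_mem _ h1 ⟨hm.1.1, hm.2⟩, h4⟩, ?_⟩
  have : (loG y g * m)⁻¹ * g = m⁻¹ * (mdG y g * upG y g) := by
    conv_lhs => rw [h2]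
    rw [loG_eq h1.2 (md_up_mem h0)]
    group
  rw [this]
  exact (Hs G y).mul_mem ((Hs G y).inv_mem hm.1)
    (P_le_Hs (G.mul_mem (hc.md hy hg h0) (hc y hy g hg h0).2) (md_up_mem h0))

/-- **`Hs` is cocompact.** -/
theorem iwa [ProperSpace k] (hn : Nice G 𝔤) (hc : Cell G) (hy : y ∈ Y G) :
    ∃ C : Set (GL (Fin n) k), IsCompact C ∧ C ⊆ G ∧ ∀ g ∈ G, ∃ c ∈ C, c⁻¹ * g ∈ Hs G y := by
  obtain ⟨m, e, Ψ, he, hΨ, hi⟩ := interp' (G := G) (pf_fy y)
  obtain ⟨C, h1, h2, h3⟩ := cpt_mod hn hc hy fun w =>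
    ∑ j, ∑ l, ‖Ψ l ((w * e j : GL (Fin n) k) : Mt n k)‖
  refine ⟨⋃ j, (fun c => (e j)⁻¹ * c) '' C, isCompact_iUnion fun j =>
    h1.image (continuous_const.mul continuous_id), ?_, fun g hg => ?_⟩
  · rintro _ ⟨_, ⟨j, rfl⟩, c, hc', rfl⟩
    exact G.mul_mem (G.inv_mem (he j)) (h2 hc').1
  · have hm : (Finset.univ : Finset (Fin m)).Nonempty := by
      by_contra h
      have := hi 1 G.one_mem 1 G.one_mem
      rw [Finset.not_nonempty_iff_eq_empty.1 h, Finset.sum_empty, mul_one, Units.val_one, fy_one] at this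
      exact one_ne_zero this
    obtain ⟨j, -, hj⟩ := Finset.exists_max_image _
      (fun j => ‖fy y ((e j * g : GL (Fin n) k) : Mt n k)‖) hm
    obtain ⟨c, h4, h5⟩ := h3 _ (G.mul_mem (he j) hg) fun w hw => by
      rw [← mul_assoc]
      rw [hi _ (G.mul_mem hw (he j)) g hg]
      refine (norm_sum_le _ _).trans ((Finset.sum_le_sum fun l _ => (norm_mul_le _ _).trans
        (mul_le_mul_of_nonneg_left (hj l (Finset.mem_univ _)) (norm_nonneg _))).trans ?_)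
      rw [← Finset.sum_mul]
      exact mul_le_mul_of_nonneg_right (Finset.single_le_sum (f := fun j =>
        ∑ l, ‖Ψ l ((w * e j : GL (Fin n) k) : Mt n k)‖)
        (fun _ _ => Finset.sum_nonneg fun _ _ => norm_nonneg _) (Finset.mem_univ j)) (norm_nonneg _)
    exact ⟨_, Set.mem_iUnion.2 ⟨j, c, h4, rfl⟩, by
      rw [_root_.mul_inv_rev, inv_inv, mul_assoc]; exact h5⟩

end Vale.Agent.P092AG
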